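import Vale.Agent.P165FreeProd.Code

/-!
# Extensions of a finite family turning most of its weight into a prefix code
-/

namespace Vale.Agent.P165FreeProd

open FreeGroup

variable {d : ℕ} {n : Fin d → ℕ}

theorem toWord_mul_list {α : Type*} [DecidableEq α] {x z : FreeGroup α} {l : List (α × Bool)}
    (hz : z.toWord = l) (hx : ∃ a r, x.toWord = r ++ [(a, true)])
    (hl : ∀ b ∈ l, b.2 = true) : (x * z).toWord = x.toWord ++ l := by
  rw [toWord_mul_eq, hz]
  intro a ha b hb _
  obtain ⟨c, r, hr⟩ := hx
  rw [hr] at ha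
  simp at ha
  rw [← ha, hl b (hz ▸ List.mem_of_mem_head? hb)]

/-- The last letter is a generator, not an inverse. -/
def EndPos {α : Type*} (l : List (α × Bool)) : Prop := ∃ a r, l = r ++ [(a, true)]

theorem toWord_back (x : Prd n) (i : Fin d) :
    ((x * gv (back x) : Prd n) i).toWord = (x i).toWord ++ [ltr i (back x i)] := by
  rw [Pi.mul_apply, toWord_mul_eq, toWord_gv]
  intro a ha b hb h1
  rw [toWord_gv] at hb
  simp at hb
  subst hb
  obtain ⟨a1, a2⟩ := a
  cases a2
  · simp only [ltr, back] at h1 ⊢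
    by_cases h : (x i).toWord.getLast? = some ((0 : Fin (n i + 2)), false)
    · rw [h] at ha
      simp at ha
      subst ha
      simp [h] at h1
    · simp [h] at h1
      exact absurd (h1 ▸ ha) h
  · rfl

theorem back_injective : Function.Injective fun x : Prd n => x * gv (back x) := by
  intro x y h
  funext i
  refine toWord_injective ?_
  have h' := congrArg (fun z : Prd n => (z i).toWord) h
  simp only [toWord_back] at h'
  exact (List.append_inj' h' rfl).1

theorem toWord_labels {z : Prd n} (hz : ∀ i, EndPos (z i).toWord)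
    (l : List (Fin d → Bool)) (i : Fin d) :
    ((z * (l.map gv).prod : Prd n) i).toWord = (z i).toWord ++ l.map fun v => ltr i (v i) := by
  rw [Pi.mul_apply]
  refine toWord_mul_list (toWord_list l i) (hz i) fun b hb => ?_
  obtain ⟨v, -, rfl⟩ := List.mem_map.1 hb
  rfl

open Classical in
/-- The case of a family whose words end with positive letters. -/
theorem exists_code_pos (V : Finset (Prd n)) (w : Prd n → ℝ) (hw : ∀ x, 0 ≤ w x) (k : ℕ)
    (hk : 2 * d * Nat.log 2 V.card ≤ 2 ^ k)
    (hV : ∀ z ∈ V, ∀ i, EndPos (z i).toWord) :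
    ∃ X ⊆ V, ∃ ev : Prd n → List (Fin d → Bool), (∀ z, (ev z).length = k + 1) ∧
      ∑ z ∈ V, w z ≤ 2 * ((k : ℝ) + 1) ^ d * ∑ z ∈ X, w z ∧
      (∀ x ∈ X, ∀ y ∈ X, x ≠ y →
        Incomp (x * ((ev x).map gv).prod) (y * ((ev y).map gv).prod)) := by
  set cls : Prd n → (Fin d → Fin (k + 1)) := fun x i =>
    ⟨(x i).toWord.length % (k + 1), Nat.mod_lt _ (Nat.succ_pos k)⟩
  obtain ⟨ρ, -, hρ⟩ := Finset.exists_max_image (Finset.univ : Finset (Fin d → Fin (k + 1)))
    (fun ρ => ∑ z ∈ V.filter (fun z => cls z = ρ), w z) Finset.univ_nonempty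
  set W := V.filter fun z => cls z = ρ
  have hVW : ∑ z ∈ V, w z ≤ ((k : ℝ) + 1) ^ d * ∑ z ∈ W, w z := by
    rw [← Finset.sum_fiberwise V cls w]
    refine (Finset.sum_le_card_nsmul _ _ _ hρ).trans_eq ?_
    simp [W]
  have hcard : Nat.log 2 W.card ≤ Nat.log 2 V.card :=
    Nat.log_mono_right (Finset.card_filter_le _ _)
  choose lab hlab using fun i : Fin d => exists_labels W (fun z => (z i).toWord) w hw
    (ltr_ne (n := n) i) k (W.image fun z => (z i).toWord)
  set ev : Prd n → List (Fin d → Bool) := fun z =>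
    List.ofFn fun j : Fin (k + 1) => fun i => lab i ((z i).toWord) j
  set lw : (i : Fin d) → List (Fin (n i + 2) × Bool) → List (Fin (n i + 2) × Bool) := fun i u =>
    List.ofFn fun j => if lab i u j then ltr i true else ltr i false
  have hlw : ∀ i u, (lw i u).length = k + 1 := fun i u => by simp [lw]
  have hev : ∀ z i, ((ev z).map fun v => (ltr i (v i) : Fin (n i + 2) × Bool)) =
      lw i (z i).toWord := by
    intro z i
    simp only [ev, lw, List.map_ofFn, Function.comp_def]
    congr 1
    funext j
    cases lab i (z i).toWord j <;> rfl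
  set killed : Prd n → Prop := fun z =>
    ∃ i, ∃ u ∈ W.image (fun z' => (z' i).toWord), u ++ lw i u <+: (z i).toWord
  have hkill : ∑ z ∈ W.filter killed, w z ≤ (∑ z ∈ W, w z) / 2 := by
    have h1 : ∑ z ∈ W.filter killed, w z ≤ ∑ z ∈ W, ∑ i : Fin d,
        (if ∃ u ∈ W.image (fun z' => (z' i).toWord), u ++ lw i u <+: (z i).toWord
          then w z else 0) := by
      rw [Finset.sum_filter]
      refine Finset.sum_le_sum fun z _ => ?_
      have h0 : ∀ i : Fin d, 0 ≤ (if ∃ u ∈ W.image (fun z' => (z' i).toWord),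
          u ++ lw i u <+: (z i).toWord then w z else 0) := fun i => by
        split_ifs <;> simp [hw]
      split_ifs with h
      · obtain ⟨i, hi⟩ := h
        exact (le_of_eq (by rw [if_pos hi])).trans
          (Finset.single_le_sum (fun j _ => h0 j) (Finset.mem_univ i))
      · exact Finset.sum_nonneg fun j _ => h0 j
    rw [Finset.sum_comm] at h1
    refine h1.trans ((Finset.sum_le_sum fun i _ => hlab i).trans ?_)
    rw [Finset.sum_const, Finset.card_univ, Fintype.card_fin, nsmul_eq_mul, ← mul_assoc]
    have hWn : 0 ≤ ∑ z ∈ W, w z := Finset.sum_nonneg fun z _ => hw z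
    have h2 : (d : ℝ) * ((Nat.log 2 W.card : ℝ) / 2 ^ k) ≤ 1 / 2 := by
      rw [mul_div_assoc', div_le_iff₀ (by positivity)]
      have h3 : (2 * d * Nat.log 2 V.card : ℝ) ≤ 2 ^ k := by exact_mod_cast hk
      have h4 : (d : ℝ) * Nat.log 2 W.card ≤ (d : ℝ) * Nat.log 2 V.card :=
        mul_le_mul_of_nonneg_left (Nat.cast_le.2 hcard) (Nat.cast_nonneg _)
      linarith
    exact (mul_le_mul_of_nonneg_right h2 hWn).trans (le_of_eq (by ring))
  set X := W.filter fun z => ¬ killed z
  have hXW : ∀ z ∈ X, z ∈ W := fun z hz => (Finset.mem_filter.1 hz).1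
  have hWV : ∀ z ∈ W, z ∈ V := fun z hz => (Finset.mem_filter.1 hz).1
  refine ⟨X, fun z hz => hWV z (hXW z hz), ev, fun z => by simp [ev], ?_, ?_⟩
  · have h := Finset.sum_filter_add_sum_filter_not W killed w
    change _ + ∑ z ∈ X, w z = _ at h
    calc ∑ z ∈ V, w z ≤ ((k : ℝ) + 1) ^ d * (2 * ∑ z ∈ X, w z) :=
          hVW.trans (mul_le_mul_of_nonneg_left (by linarith) (by positivity))
      _ = _ := by ring
  have hnot : ∀ x ∈ X, ∀ y ∈ X, ∀ i, (x i).toWord.length ≤ (y i).toWord.length →
      (x i).toWord ≠ (y i).toWord →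
      ¬ (x i).toWord ++ lw i (x i).toWord <+: (y i).toWord ++ lw i (y i).toWord ∧
      ¬ (y i).toWord ++ lw i (y i).toWord <+: (x i).toWord ++ lw i (x i).toWord := by
    intro x hx y hy i hle hne
    rcases hle.lt_or_eq with hlt | heq
    · have hlong : (x i).toWord.length + (k + 1) ≤ (y i).toWord.length := by
        have h1 := congrArg (fun f => (f i).val) ((Finset.mem_filter.1 (hXW x hx)).2.trans
          (Finset.mem_filter.1 (hXW y hy)).2.symm)
        simp only [cls] at h1
        have h2 := (Nat.modEq_iff_dvd' hlt.le).1 h1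
        have h3 := Nat.le_of_dvd (by omega) h2
        omega
      constructor
      · intro hp
        refine (Finset.mem_filter.1 hy).2 ⟨i, _, Finset.mem_image_of_mem _ (hXW x hx), ?_⟩
        refine List.prefix_of_prefix_length_le hp (List.prefix_append _ _) ?_
        rw [List.length_append, hlw]
        omega
      · intro hp
        have := hp.length_le
        simp only [List.length_append, hlw] at this
        omega
    · constructor <;> intro hp <;>
        have h1 := hp.eq_of_length (by simp [hlw, heq]) <;>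
        have h2 := (List.append_inj' h1 (by rw [hlw, hlw])).1
      · exact hne h2
      · exact hne h2.symm
  intro x hx y hy hne
  obtain ⟨i, hi⟩ : ∃ i, (x i).toWord ≠ (y i).toWord := by
    by_contra h
    exact hne (funext fun i => toWord_injective (by_contra fun h' => h ⟨i, h'⟩))
  refine ⟨i, ?_⟩
  rw [toWord_labels (hV x (hWV x (hXW x hx))), toWord_labels (hV y (hWV y (hXW y hy))), hev, hev]
  rcases le_total (x i).toWord.length (y i).toWord.length with h | h
  · exact hnot x hx y hy i h hi
  · exact (hnot y hy x hx i h hi.symm).symm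

open Classical in
/-- Most of the weight of a finite family can be extended by short lists of positive letters to a
prefix code. -/
theorem exists_code (U : Finset (Prd n)) (w : Prd n → ℝ) (hw : ∀ x, 0 ≤ w x) (k : ℕ)
    (hk : 2 * d * Nat.log 2 U.card ≤ 2 ^ k) :
    ∃ X ⊆ U, ∃ ext : Prd n → List (Fin d → Bool),
      (∀ x, (ext x).length = k + 2) ∧
      ∑ x ∈ U, w x ≤ 2 * ((k : ℝ) + 1) ^ d * ∑ x ∈ X, w x ∧
      (∀ x i, ((x * ((ext x).map gv).prod : Prd n) i).toWord =
        (x i).toWord ++ (ext x).map fun v => ltr i (v i)) ∧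
      (∀ x ∈ X, ∀ y ∈ X, x ≠ y →
        Incomp (x * ((ext x).map gv).prod) (y * ((ext y).map gv).prod)) := by
  set pad : Prd n → Prd n := fun x => x * gv (back x)
  have hinj : Function.Injective pad := back_injective
  have hlast : ∀ x i, EndPos (pad x i).toWord := fun x i =>
    ⟨_, (x i).toWord, toWord_back x i⟩
  set wp : Prd n → ℝ := Function.extend pad w 0
  have hwp : ∀ z, 0 ≤ wp z := by
    intro z
    by_cases h : ∃ x, pad x = z
    · obtain ⟨x, rfl⟩ := h
      simp only [wp, hinj.extend_apply]
      exact hw x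
    · simp only [wp, Function.extend_apply' _ _ _ h, Pi.zero_apply, le_refl]
  have hwp_eq : ∀ x, wp (pad x) = w x := fun x => hinj.extend_apply _ _ x
  obtain ⟨Y, hY, ev, hlen, hsum, hinc⟩ := exists_code_pos (U.image pad) wp hwp k
    (le_trans (Nat.mul_le_mul_left _ (Nat.log_mono_right Finset.card_image_le)) hk) (by
      intro z hz i
      obtain ⟨x, -, rfl⟩ := Finset.mem_image.1 hz
      exact hlast x i)
  refine ⟨U.filter (fun x => pad x ∈ Y), Finset.filter_subset _ _,
    fun x => back x :: ev (pad x), fun x => by simp [hlen], ?_, ?_, ?_⟩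
  · have e : Y = (U.filter fun x => pad x ∈ Y).image pad := by
      ext z
      simp only [Finset.mem_image, Finset.mem_filter]
      refine ⟨fun hz => ?_, ?_⟩
      · obtain ⟨x, hx, rfl⟩ := Finset.mem_image.1 (hY hz)
        exact ⟨x, ⟨hx, hz⟩, rfl⟩
      · rintro ⟨x, ⟨-, hx⟩, rfl⟩
        exact hx
    rw [Finset.sum_image hinj.injOn, e, Finset.sum_image hinj.injOn] at hsum
    simp only [hwp_eq] at hsum
    exact hsum
  · intro x i
    rw [List.map_cons, List.prod_cons, ← mul_assoc, toWord_labels (hlast x), List.map_cons]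
    simp only [pad, toWord_back, List.append_assoc, List.cons_append, List.nil_append]
  · intro x hx y hy hne
    simp only [List.map_cons, List.prod_cons, ← mul_assoc]
    exact hinc _ (Finset.mem_filter.1 hx).2 _ (Finset.mem_filter.1 hy).2 (hinj.ne hne)

end Vale.Agent.P165FreeProd
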