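import Vale.Agent.P165FreeProd.Z.Group
import Vale.Agent.P165FreeProd.Cayley

/-!
# Two connections joined by one of many disjoint bridges
-/

namespace Vale.Agent.P165FreeProd

open Vale.Agent.P165

open Classical in
/-- A second moment bound for the union of connections completed by private sets of elements. -/
theorem bridge_prob {α ι : Type*} [DecidableEq α] {p : ℝ} (h0 : 0 < p) (h1 : p ≤ 1)
    (E : Finset α) (EA : ι → Finset α) (rk : ι → ℕ) (I : Finset ι) (R : ι → Finset α → Prop)
    (hR : ∀ k, Monotone (R k))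
    (U F : ι → Finset α) (hU : ∀ k ∈ I, U k ⊆ E) (hF : ∀ k ∈ I, F k ⊆ E)
    (hFA : ∀ k ∈ I, ∀ l ∈ I, rk k ≤ rk l → Disjoint (F l) (EA k))
    (hFF : ∀ k ∈ I, ∀ l ∈ I, k ≠ l → Disjoint (F k) (F l))
    {b f : ℕ} (hb : ∀ k ∈ I, (U k).card ≤ b) (hf : ∀ k ∈ I, (F k).card ≤ f)
    {s0 : ℝ} (hs0 : 0 < s0) (hs0f : s0 ≤ p ^ f) (hsI : s0 * I.card ≤ 1) :
    (p ^ b) ^ 2 * s0 * (∑ k ∈ I, Pr E p (fun s => R k (s ∩ EA k))) ≤
      3 * Pr E p (fun s => ∃ k ∈ I, R k (s ∩ EA k) ∧ U k ⊆ s ∧ F k ⊆ s) := by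
  set P := fun k => Pr E p (fun s => R k (s ∩ EA k))
  set A : ι → Finset α → Prop := fun k s => R k (s ∩ EA k) ∧ U k ⊆ s ∧ F k ⊆ s
  set a : ι → ℝ := fun k => s0 / p ^ (F k).card
  have ha0 : ∀ k, 0 ≤ a k := fun k => by positivity
  have ha1 : ∀ k ∈ I, a k ≤ 1 := fun k hk => by
    rw [div_le_one (by positivity)]
    exact hs0f.trans (pow_le_pow_of_le_one h0.le h1 (hf k hk))
  have hRm : ∀ k, Monotone fun s => R k (s ∩ EA k) := fun k s t h =>
    hR k (Finset.inter_subset_inter_right h)
  have hone : ∀ k ∈ I, Pr E p (fun s => F k ⊆ s ∧ R k (s ∩ EA k)) =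
      p ^ (F k).card * Pr (E \ F k) p (fun s => R k (s ∩ EA k)) := by
    intro k hk
    refine Pr_subset_and (hF k hk) _ fun s _ => ?_
    rw [show (s \ F k) ∩ EA k = s ∩ EA k by
      ext e
      simp only [Finset.mem_inter, Finset.mem_sdiff]
      exact ⟨fun h => ⟨h.1.1, h.2⟩,
        fun h => ⟨⟨h.1, fun hh => Finset.disjoint_left.1 (hFA k hk k hk le_rfl) hh h.2⟩, h.2⟩⟩]
  have hfree : ∀ k ∈ I, Pr (E \ F k) p (fun s => R k (s ∩ EA k)) = P k := by
    intro k hk
    rw [← Pr_restrict (p := p) (E := E) (F := E \ F k) Finset.sdiff_subset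
      (fun s => R k (s ∩ EA k))]
    refine Pr_congr fun s hs => ?_
    rw [show s ∩ (E \ F k) ∩ EA k = s ∩ EA k by
      ext e
      simp only [Finset.mem_inter, Finset.mem_sdiff]
      exact ⟨fun h => ⟨h.1.1, h.2⟩,
        fun h => ⟨⟨h.1, hs h.1, fun hh => Finset.disjoint_left.1 (hFA k hk k hk le_rfl) hh h.2⟩, h.2⟩⟩]
  have hpiece : ∀ k ∈ I, p ^ b * (p ^ (F k).card * P k) ≤ Pr E p (A k) := by
    intro k hk
    have hUm : Monotone fun s : Finset α => U k ⊆ s := fun s t h hs => hs.trans h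
    have hFm : Monotone fun s : Finset α => F k ⊆ s ∧ R k (s ∩ EA k) := fun s t h hs =>
      ⟨hs.1.trans h, hRm k h hs.2⟩
    have hUp : p ^ (U k).card = Pr E p (fun s => U k ⊆ s) := by
      have := Pr_subset_and (p := p) (hU k hk) (fun _ => True) fun _ _ => Iff.rfl
      rw [Pr_true, mul_one] at this
      simpa using this.symm
    calc p ^ b * (p ^ (F k).card * P k) ≤ p ^ (U k).card * (p ^ (F k).card * P k) :=
          mul_le_mul_of_nonneg_right (pow_le_pow_of_le_one h0.le h1 (hb k hk))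
            (mul_nonneg (by positivity) (Pr_nonneg h0.le h1 _))
      _ = Pr E p (fun s => U k ⊆ s) * Pr E p (fun s => F k ⊆ s ∧ R k (s ∩ EA k)) := by
          rw [hUp, hone k hk, hfree k hk]
      _ ≤ _ := (harris h0.le h1 E hUm hFm).trans
          (Pr_mono h0.le h1 fun s _ h => ⟨h.2.2, h.1, h.2.1⟩)
  have hdiag : ∀ k ∈ I, Pr E p (A k) ≤ p ^ (F k).card * P k := fun k hk => by
    rw [← hfree k hk, ← hone k hk]
    exact Pr_mono h0.le h1 fun s _ h => ⟨h.2.2, h.1⟩
  have hoff : ∀ k ∈ I, ∀ l ∈ I, k ≠ l → Pr E p (fun s => A k s ∧ A l s) ≤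
      p ^ (F k).card * p ^ (F l).card * (P k + P l) := by
    have key : ∀ k ∈ I, ∀ l ∈ I, k ≠ l → rk k ≤ rk l → Pr E p (fun s => A k s ∧ A l s) ≤
        p ^ (F k).card * p ^ (F l).card * P k := by
      intro k hk l hl hne hle
      have hFU : F k ∪ F l ⊆ E := Finset.union_subset (hF k hk) (hF l hl)
      have hd : Disjoint (F k ∪ F l) (EA k) :=
        Finset.disjoint_union_left.2 ⟨hFA k hk k hk le_rfl, hFA k hk l hl hle⟩
      refine (Pr_mono h0.le h1 (B := fun s => F k ∪ F l ⊆ s ∧ R k (s ∩ EA k))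
        fun s _ h => ⟨Finset.union_subset h.1.2.2 h.2.2.2, h.1.1⟩).trans ?_
      rw [Pr_subset_and hFU _ fun s _ => by
        rw [show (s \ (F k ∪ F l)) ∩ EA k = s ∩ EA k by
          ext e
          simp only [Finset.mem_inter, Finset.mem_sdiff]
          exact ⟨fun h => ⟨h.1.1, h.2⟩,
            fun h => ⟨⟨h.1, fun hh => Finset.disjoint_left.1 hd hh h.2⟩, h.2⟩⟩],
        Finset.card_union_of_disjoint (hFF k hk l hl hne), pow_add]
      exact mul_le_mul_of_nonneg_left (Pr_le_of_subset Finset.sdiff_subset h0.le h1 (hRm k))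
        (by positivity)
    intro k hk l hl hne
    have hPk : 0 ≤ P k := Pr_nonneg h0.le h1 _
    have hPl : 0 ≤ P l := Pr_nonneg h0.le h1 _
    rcases le_total (rk k) (rk l) with h | h
    · refine (key k hk l hl hne h).trans (mul_le_mul_of_nonneg_left ?_ (by positivity))
      linarith
    · rw [Pr_congr (B := fun s => A l s ∧ A k s) fun s _ => and_comm,
        mul_comm (p ^ (F k).card)]
      refine (key l hl k hk (Ne.symm hne) h).trans (mul_le_mul_of_nonneg_left ?_ (by positivity))
      linarith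
  set w : Finset α → ℝ := fun s => p ^ s.card * (1 - p) ^ (E.card - s.card)
  have hw : ∀ s, 0 ≤ w s := fun s => mul_nonneg (pow_nonneg h0.le _) (pow_nonneg (sub_nonneg.2 h1) _)
  set N : Finset α → ℝ := fun s => ∑ k ∈ I, if A k s then a k else 0
  set T := Pr E p (fun s => ∃ k ∈ I, A k s)
  set Q := ∑ k ∈ I, P k
  have hQ : 0 ≤ Q := Finset.sum_nonneg fun k _ => Pr_nonneg h0.le h1 _
  have hmean : p ^ b * s0 * Q ≤ ∑ s ∈ E.powerset, w s * N s := by
    rw [show ∑ s ∈ E.powerset, w s * N s = ∑ k ∈ I, a k * Pr E p (A k) by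
      simp only [Pr, Finset.mul_sum, w, N]
      rw [Finset.sum_comm]
      exact Finset.sum_congr rfl fun k _ => Finset.sum_congr rfl fun s _ => by
        split_ifs <;> ring, Finset.mul_sum]
    refine Finset.sum_le_sum fun k hk => ?_
    calc p ^ b * s0 * P k = a k * (p ^ b * (p ^ (F k).card * P k)) := by
          simp only [a]; field_simp
      _ ≤ _ := mul_le_mul_of_nonneg_left (hpiece k hk) (ha0 k)
  have hsq : ∑ s ∈ E.powerset, w s * N s ^ 2 ≤ 3 * s0 * Q := by
    have hexp : ∑ s ∈ E.powerset, w s * N s ^ 2 =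
        ∑ k ∈ I, ∑ l ∈ I, a k * a l * Pr E p (fun s => A k s ∧ A l s) := by
      simp only [Pr, Finset.mul_sum, N, sq, Finset.sum_mul]
      rw [Finset.sum_comm]
      refine Finset.sum_congr rfl fun k _ => ?_
      rw [Finset.sum_comm]
      refine Finset.sum_congr rfl fun l _ => Finset.sum_congr rfl fun s _ => ?_
      by_cases hk : A k s <;> by_cases hl : A l s <;> simp [hk, hl, w] <;> ring
    rw [hexp]
    calc ∑ k ∈ I, ∑ l ∈ I, a k * a l * Pr E p (fun s => A k s ∧ A l s)
        ≤ ∑ k ∈ I, ∑ l ∈ I, ((if k = l then s0 * P k else 0) + s0 ^ 2 * (P k + P l)) := by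
          refine Finset.sum_le_sum fun k hk => Finset.sum_le_sum fun l hl => ?_
          have hPk : 0 ≤ P k := Pr_nonneg h0.le h1 _
          have hPl : 0 ≤ P l := Pr_nonneg h0.le h1 _
          by_cases he : k = l
          · subst he
            rw [if_pos rfl]
            refine le_add_of_le_of_nonneg ?_ (by positivity)
            calc a k * a k * Pr E p (fun s => A k s ∧ A k s)
                ≤ 1 * a k * (p ^ (F k).card * P k) := by
                  refine mul_le_mul (mul_le_mul_of_nonneg_right (ha1 k hk) (ha0 k))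
                    ((Pr_mono h0.le h1 fun s _ h => h.1).trans (hdiag k hk))
                    (Pr_nonneg h0.le h1 _) (by have := ha0 k; positivity)
              _ = s0 * P k := by simp only [a]; field_simp
          · rw [if_neg he, zero_add]
            calc a k * a l * Pr E p (fun s => A k s ∧ A l s)
                ≤ a k * a l * (p ^ (F k).card * p ^ (F l).card * (P k + P l)) :=
                  mul_le_mul_of_nonneg_left (hoff k hk l hl he) (mul_nonneg (ha0 k) (ha0 l))
              _ = s0 ^ 2 * (P k + P l) := by simp only [a]; field_simp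
      _ = s0 * Q + 2 * (s0 * I.card) * (s0 * Q) := by
          simp only [mul_add, Finset.sum_add_distrib, Finset.sum_const, nsmul_eq_mul]
          rw [Finset.sum_congr rfl fun k hk => show (∑ l ∈ I, if k = l then s0 * P k else 0) =
              s0 * P k by rw [Finset.sum_ite_eq, if_pos hk]]
          simp only [← Finset.mul_sum, Q]
          ring
      _ ≤ _ := by nlinarith [mul_nonneg hs0.le hQ]
  have hcs : (∑ s ∈ E.powerset, w s * N s) ^ 2 ≤ T * ∑ s ∈ E.powerset, w s * N s ^ 2 := by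
    simp only [T, Pr]
    refine Finset.sum_sq_le_sum_mul_sum_of_sq_le_mul _ (fun s _ => ?_)
      (fun s _ => mul_nonneg (hw s) (sq_nonneg _)) fun s _ => ?_
    · split_ifs
      exacts [hw s, le_rfl]
    · split_ifs with h
      · exact le_of_eq (by ring)
      · have : N s = 0 := Finset.sum_eq_zero fun k hk => if_neg fun hh => h ⟨k, hk, hh⟩
        simp [this]
  have hkey : (p ^ b * s0 * Q) ^ 2 ≤ T * (3 * s0 * Q) :=
    (pow_le_pow_left₀ (by positivity) hmean 2).trans
      (hcs.trans (mul_le_mul_of_nonneg_left hsq (Pr_nonneg h0.le h1 _)))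
  rcases hQ.lt_or_eq with hpos | hz
  · refine le_of_mul_le_mul_right ?_ (mul_pos hs0 hpos)
    calc (p ^ b) ^ 2 * s0 * Q * (s0 * Q) = (p ^ b * s0 * Q) ^ 2 := by ring
      _ ≤ T * (3 * s0 * Q) := hkey
      _ = _ := by ring
  · change (p ^ b) ^ 2 * s0 * Q ≤ _
    rw [← hz, mul_zero]
    exact mul_nonneg (by norm_num) (Pr_nonneg h0.le h1 _)

namespace WithZ

variable {d : ℕ} {n : Fin d → ℕ} {Γ : Type*} [Group Γ] [DecidableEq Γ] {emb : ZPrd n →* Γ}
  (D : Dec emb) (S : Finset Γ)

/-- Connection probability inside a ball. -/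
noncomputable def Dec.val (i : ℕ) (p : ℝ) (x : Γ) : ℝ := tauS (cnb S) (D.ball i) p 1 x

/-- The edges of a step from `z`. -/
noncomputable def stepE (V0 : Finset Γ) (z : Γ) : Finset (Sym2 Γ) :=
  edgesIn (cnb S) (V0.image (z * ·))

theorem card_stepE (V0 : Finset Γ) (z : Γ) :
    (stepE S V0 z).card ≤ (edgesIn (cnb S) V0).card := by
  rw [stepE, edgesIn_shift]
  exact Finset.card_image_le

theorem conn_step {V0 : Finset Γ} {z e : Γ} (he : Conn 1 e (edgesIn (cnb S) V0))
    {s : Finset (Sym2 Γ)} (hs : stepE S V0 z ⊆ s) : Conn z (z * e) s := by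
  have h := (conn_shift z (edgesIn (cnb S) V0) 1 e).2 he
  rw [mul_one] at h
  rw [stepE, edgesIn_shift] at hs
  exact conn_mono z (z * e) hs h

/-- The position after `q` letters of the bridge. -/
def basePt (emb : ZPrd n →* Γ) (h : Prd n) (L : List (Fin d → Bool)) (k : ℤ) (q : ℕ) : Γ :=
  emb (h * ((L.take q).map gv).prod, Multiplicative.ofAdd k)

omit [DecidableEq Γ] in
theorem basePt_succ (h : Prd n) (L : List (Fin d → Bool)) (k : ℤ) {q : ℕ} (hq : q < L.length) :
    basePt emb h L k (q + 1) = basePt emb h L k q * emb (gv L[q], 1) := by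
  rw [basePt, basePt, ← _root_.map_mul, List.take_succ_eq_append_getElem hq, List.map_append,
    List.prod_append, Prod.mk_mul_mk, mul_one]
  simp [mul_assoc]

/-- The two halves joined by bridges along a fixed word. -/
theorem bridge_le {p : ℝ} (h0 : 0 < p) (h1 : p ≤ 1) {V0 : Finset Γ} {r : Γ}
    (hgv : ∀ v, Conn 1 (emb (gv v, 1)) (edgesIn (cnb S) V0))
    (hr : Conn 1 r (edgesIn (cnb S) V0)) (hr' : Conn 1 r⁻¹ (edgesIn (cnb S) V0))
    {Du : ℕ} (hDu : ∀ u ∈ V0, (D.zc u).natAbs ≤ Du)
    (h g : Prd n) (L : List (Fin d → Bool)) {q1 m : ℕ} (hqm : q1 + m ≤ L.length)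
    (I : Finset ℤ) (hI : ∀ k ∈ I, ∀ l ∈ I, k ≠ l → 2 * Du < (k - l).natAbs) (i j : ℤ → ℕ)
    (hout : ∀ k ∈ I, ∀ l ∈ I, k.natAbs ≤ l.natAbs → ∀ q, q1 ≤ q → q < q1 + m → ∀ u ∈ V0,
      i k ≤ D.len (basePt emb h L l q * u) ∧
      j k ≤ D.len ((emb (h * (L.map gv).prod * g, 1))⁻¹ * (basePt emb h L l q * u)))
    {s0 : ℝ} (hs0 : 0 < s0) (hs0f : s0 ≤ p ^ ((edgesIn (cnb S) V0).card * m))
    (hsI : s0 * I.card ≤ 1) :
    (p ^ ((edgesIn (cnb S) V0).card * (L.length - m + 2))) ^ 2 * s0 *
        (∑ k ∈ I, D.val S (i k) p (emb (h, Multiplicative.ofAdd k) * r) *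
          D.val S (j k) p (emb (g⁻¹, Multiplicative.ofAdd k) * r)) ≤
      3 * tau S p (emb (h * (L.map gv).prod * g, 1)) := by
  classical
  set t := emb (h * (L.map gv).prod * g, 1)
  set c := (edgesIn (cnb S) V0).card
  set x : ℤ → Γ := fun k => emb (h, Multiplicative.ofAdd k) * r
  set x' : ℤ → Γ := fun k => emb (g⁻¹, Multiplicative.ofAdd k) * r
  set π : ℤ → ℕ → Γ := basePt emb h L
  set mid := Finset.Ico q1 (q1 + m)
  set rest := Finset.range L.length \ mid
  set Ei := fun k => edgesIn (cnb S) (D.ball (i k))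
  set Ej := fun k => edgesIn (cnb S) ((D.ball (j k)).image (t * ·))
  set U : ℤ → Finset (Sym2 Γ) := fun k =>
    (stepE S V0 (x k) ∪ stepE S V0 (π k L.length)) ∪ rest.biUnion fun q => stepE S V0 (π k q)
  set F : ℤ → Finset (Sym2 Γ) := fun k => mid.biUnion fun q => stepE S V0 (π k q)
  set Λ := (I.biUnion fun k => D.ball (i k) ∪ (D.ball (j k)).image (t * ·)) ∪ I.biUnion fun k =>
    V0.image (x k * ·) ∪ (Finset.range (L.length + 1)).biUnion fun q => V0.image (π k q * ·)
  set E := edgesIn (cnb S) Λ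
  set R : ℤ → Finset (Sym2 Γ) → Prop := fun k s =>
    Conn 1 (x k) (s ∩ Ei k) ∧ Conn t (t * x' k) (s ∩ Ej k)
  have hstepE : ∀ k ∈ I, ∀ q ≤ L.length, stepE S V0 (π k q) ⊆ E := fun k hk q hq =>
    edgesIn_mono (lf_cay S) fun v hv => Finset.mem_union_right _ (Finset.mem_biUnion.2 ⟨k, hk,
      Finset.mem_union_right _ (Finset.mem_biUnion.2 ⟨q, Finset.mem_range.2 (by omega), hv⟩)⟩)
  have hEi : ∀ k ∈ I, Ei k ⊆ E := fun k hk => edgesIn_mono (lf_cay S) fun v hv =>
    Finset.mem_union_left _ (Finset.mem_biUnion.2 ⟨k, hk, Finset.mem_union_left _ hv⟩)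
  have hEj : ∀ k ∈ I, Ej k ⊆ E := fun k hk => edgesIn_mono (lf_cay S) fun v hv =>
    Finset.mem_union_left _ (Finset.mem_biUnion.2 ⟨k, hk, Finset.mem_union_right _ hv⟩)
  have hFel : ∀ k, ∀ e ∈ F k, ∀ v ∈ e,
      ∃ q, q1 ≤ q ∧ q < q1 + m ∧ ∃ u ∈ V0, v = π k q * u := by
    intro k e he v hv
    obtain ⟨q, hq, he⟩ := Finset.mem_biUnion.1 he
    induction e using Sym2.ind with
    | _ a b =>
      obtain ⟨-, ha, hb⟩ := (mem_edgesIn (lf_cay S)).1 he
      rcases Sym2.mem_iff.1 hv with rfl | rfl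
      · obtain ⟨u, hu, rfl⟩ := Finset.mem_image.1 ha
        exact ⟨q, (Finset.mem_Ico.1 hq).1, (Finset.mem_Ico.1 hq).2, u, hu, rfl⟩
      · obtain ⟨u, hu, rfl⟩ := Finset.mem_image.1 hb
        exact ⟨q, (Finset.mem_Ico.1 hq).1, (Finset.mem_Ico.1 hq).2, u, hu, rfl⟩
  have hzc : ∀ k q u, D.zc (π k q * u) = k + D.zc u := by
    intro k q u
    simp only [π, basePt, Dec.zc, D.equiv, Prod.snd_mul, toAdd_mul, toAdd_ofAdd]
  have hmain := bridge_prob (b := c * (L.length - m + 2)) (f := c * m) h0 h1 E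
    (fun k => Ei k ∪ Ej k) Int.natAbs I R
    (fun k s s' hss hs => ⟨conn_mono _ _ (Finset.inter_subset_inter_right hss) hs.1,
      conn_mono _ _ (Finset.inter_subset_inter_right hss) hs.2⟩) U F ?_ ?_ ?_ ?_ ?_ ?_
    hs0 hs0f hsI
  · refine le_trans ?_ (hmain.trans (mul_le_mul_of_nonneg_left ?_ (by norm_num)))
    · refine mul_le_mul_of_nonneg_left (Finset.sum_le_sum fun k hk => ?_) (by positivity)
      have hA : D.val S (i k) p (x k) = Pr E p (fun s => Conn 1 (x k) (s ∩ Ei k)) :=
        (Pr_restrict (hEi k hk) _).symm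
      have hB : D.val S (j k) p (x' k) = Pr E p (fun s => Conn t (t * x' k) (s ∩ Ej k)) := by
        rw [Pr_restrict (hEj k hk)]
        show _ = tauS (cnb S) ((D.ball (j k)).image (t * ·)) p t (t * x' k)
        have := tauS_shift S t (D.ball (j k)) p 1 (x' k)
        rw [mul_one] at this
        exact this.symm
      rw [hA, hB]
      refine (harris h0.le h1 E
        (fun s s' hss hs => conn_mono _ _ (Finset.inter_subset_inter_right hss) hs)
        (fun s s' hss hs => conn_mono _ _ (Finset.inter_subset_inter_right hss) hs)).trans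
        (le_of_eq (Pr_congr fun s _ => ?_))
      show _ ↔ Conn 1 (x k) (s ∩ (Ei k ∪ Ej k) ∩ Ei k) ∧
        Conn t (t * x' k) (s ∩ (Ei k ∪ Ej k) ∩ Ej k)
      rw [Finset.inter_assoc, Finset.inter_assoc, Finset.inter_eq_right.2 Finset.subset_union_left,
        Finset.inter_eq_right.2 Finset.subset_union_right]
    · refine (Pr_mono h0.le h1 (B := Conn 1 t) ?_).trans (tauS_le_tau S h0.le h1 Λ t)
      rintro s - ⟨k, -, ⟨hc1, hc2⟩, hUs, hFs⟩
      have hstep : ∀ q < L.length, stepE S V0 (π k q) ⊆ s := by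
        intro q hq
        by_cases hm : q ∈ mid
        · exact (Finset.subset_biUnion_of_mem (fun q => stepE S V0 (π k q)) hm).trans hFs
        · refine (subset_trans ?_ Finset.subset_union_right).trans hUs
          exact Finset.subset_biUnion_of_mem (fun q => stepE S V0 (π k q))
            (Finset.mem_sdiff.2 ⟨Finset.mem_range.2 hq, hm⟩)
      have hpath : ∀ q ≤ L.length, Conn (π k 0) (π k q) s := by
        intro q
        induction q with
        | zero => exact fun _ => SimpleGraph.Reachable.refl _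
        | succ q ih =>
          intro hq
          refine (ih (Nat.le_of_lt hq)).trans ?_
          show Conn (π k q) (basePt emb h L k (q + 1)) s
          rw [basePt_succ h L k hq]
          exact conn_step S (hgv _) (hstep q hq)
      have e0 : π k 0 = x k * r⁻¹ := by simp [π, x, basePt]
      have e1 : π k L.length * r = t * x' k := by
        simp only [π, t, x', basePt, List.take_length, ← mul_assoc, ← _root_.map_mul,
          Prod.mk_mul_mk, mul_inv_cancel_right, one_mul]
      have c1 : Conn 1 (x k) s := conn_mono _ _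
        (Finset.inter_subset_left.trans Finset.inter_subset_left) hc1
      have c2 : Conn t (t * x' k) s := conn_mono _ _
        (Finset.inter_subset_left.trans Finset.inter_subset_left) hc2
      have s1 : Conn (x k) (π k 0) s := e0 ▸ conn_step S hr' (((Finset.subset_union_left).trans
        Finset.subset_union_left).trans hUs)
      have s2 : Conn (π k L.length) (t * x' k) s := e1 ▸ conn_step S hr
        (((Finset.subset_union_right).trans Finset.subset_union_left).trans hUs)
      exact ((c1.trans s1).trans (hpath _ le_rfl)).trans (s2.trans c2.symm)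
  · intro k hk
    refine Finset.union_subset (Finset.union_subset ?_ (hstepE k hk _ le_rfl)) ?_
    · exact edgesIn_mono (lf_cay S) fun v hv => Finset.mem_union_right _
        (Finset.mem_biUnion.2 ⟨k, hk, Finset.mem_union_left _ hv⟩)
    · exact Finset.biUnion_subset.2 fun q hq =>
        hstepE k hk q (Finset.mem_range.1 (Finset.mem_sdiff.1 hq).1).le
  · intro k hk
    exact Finset.biUnion_subset.2 fun q hq => hstepE k hk q (by
      have := (Finset.mem_Ico.1 hq).2; omega)
  · intro k hk l hl hkl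
    rw [Finset.disjoint_left]
    intro e he he'
    induction e using Sym2.ind with
    | _ a b =>
      obtain ⟨q, hq1, hq2, u, hu, rfl⟩ := hFel l _ he a (Sym2.mem_mk_left _ _)
      rcases Finset.mem_union.1 he' with h' | h'
      · exact absurd ((D.mem_ball).1 ((mem_edgesIn (lf_cay S)).1 h').2.1)
          (not_lt.2 (hout k hk l hl hkl q hq1 hq2 u hu).1)
      · obtain ⟨w, hw, he2⟩ := Finset.mem_image.1 ((mem_edgesIn (lf_cay S)).1 h').2.1
        have e3 : t⁻¹ * (π l q * u) = w := by rw [← he2, inv_mul_cancel_left]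
        exact absurd ((D.mem_ball).1 hw) (not_lt.2 (e3 ▸ (hout k hk l hl hkl q hq1 hq2 u hu).2))
  · intro k hk l hl hne
    rw [Finset.disjoint_left]
    intro e he he'
    induction e using Sym2.ind with
    | _ a b =>
      obtain ⟨q, -, -, u, hu, hu'⟩ := hFel k _ he a (Sym2.mem_mk_left _ _)
      obtain ⟨q', -, -, u', hu'', hu3⟩ := hFel l _ he' a (Sym2.mem_mk_left _ _)
      have h2 := congrArg D.zc (hu'.symm.trans hu3)
      rw [hzc, hzc] at h2
      have h3 := hI k hk l hl hne
      have h4 := hDu u hu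
      have h5 := hDu u' hu''
      omega
  · intro k _
    refine (Finset.card_union_le _ _).trans ?_
    refine (Nat.add_le_add (Finset.card_union_le _ _) Finset.card_biUnion_le).trans ?_
    refine (Nat.add_le_add (Nat.add_le_add (card_stepE S V0 _) (card_stepE S V0 _))
      (Finset.sum_le_sum fun q _ => card_stepE S V0 _)).trans ?_
    have hc' : rest.card = L.length - m := by
      rw [Finset.card_sdiff_of_subset, Finset.card_range, Nat.card_Ico, Nat.add_sub_cancel_left]
      intro q hq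
      simp only [mid, Finset.mem_Ico] at hq
      exact Finset.mem_range.2 (by omega)
    rw [Finset.sum_const, hc', smul_eq_mul]
    simp only [c]
    nlinarith
  · intro k _
    refine Finset.card_biUnion_le.trans ((Finset.sum_le_sum fun q _ => card_stepE S V0 _).trans ?_)
    rw [Finset.sum_const, Nat.card_Ico, Nat.add_sub_cancel_left, smul_eq_mul, mul_comm]

end WithZ

end Vale.Agent.P165FreeProd
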