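import Vale.Agent.P165FreeProd.Group
import Vale.Agent.P165FreeProd.Z.Extend
import Vale.Agent.P165FreeProd.Z.Bridge

/-!
# The mass of heavy points in the windows grows slower than the scale
-/

namespace Vale.Agent.P165FreeProd.WithZ

open Vale.Agent.P165 FreeGroup

variable {d : ℕ} {n : Fin d → ℕ} {Γ : Type*} [Group Γ] [DecidableEq Γ] {emb : ZPrd n →* Γ}
  (D : Dec emb) (S : Finset Γ) {p : ℝ}

theorem tau_le_one (h0 : 0 ≤ p) (h1 : p ≤ 1) (x : Γ) : tau S p x ≤ 1 :=
  ciSup_le fun _ => tauS_le_one h0 h1 _ _ _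

variable (emb) in
/-- The largest value of the two-point function over a fibre. -/
noncomputable def supW (p : ℝ) (h : Prd n) : ℝ :=
  ⨆ k : ℤ, tau S p (emb (h, Multiplicative.ofAdd k))

theorem le_supW (h0 : 0 ≤ p) (h1 : p ≤ 1) (h : Prd n) (k : ℤ) :
    tau S p (emb (h, Multiplicative.ofAdd k)) ≤ supW emb S p h :=
  le_ciSup (f := fun k : ℤ => tau S p (emb (h, Multiplicative.ofAdd k)))
    ⟨1, by rintro _ ⟨k, rfl⟩; exact tau_le_one S h0 h1 _⟩ k

theorem weight_supW (hinj : Function.Injective emb) (h0 : 0 ≤ p) (h1 : p ≤ 1)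
    (hb : Subcrit S p) {c : ℝ} (hc : ∀ v, c ≤ tau S p (emb (gv v, 1))) :
    Weight (supW emb S p) c where
  nonneg h := (tau_nonneg S h0 h1 _).trans (le_supW S h0 h1 h 0)
  mul_le x y := by
    have hbd : ∀ k l : ℤ, tau S p (emb (x, Multiplicative.ofAdd k)) *
        tau S p (emb (y, Multiplicative.ofAdd l)) ≤ supW emb S p (x * y) := fun k l => by
      refine (tau_mul S h0 h1 _ _).trans ?_
      rw [← _root_.map_mul, Prod.mk_mul_mk, ← ofAdd_add]
      exact le_supW S h0 h1 _ _
    have hy0 : 0 ≤ supW emb S p y := (tau_nonneg S h0 h1 _).trans (le_supW S h0 h1 y 0)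
    rw [supW, Real.iSup_mul_of_nonneg hy0]
    refine ciSup_le fun k => ?_
    rw [supW, Real.mul_iSup_of_nonneg (tau_nonneg S h0 h1 _)]
    exact ciSup_le fun l => hbd k l
  gen v := (hc v).trans (le_supW S h0 h1 (gv v) 0)
  code E hp hi := by
    classical
    refine le_of_forall_pos_le_add fun ε hε => ?_
    set δ := ε / ((E.card : ℝ) + 1)
    have hδ : 0 < δ := by positivity
    have hnear : ∀ h : Prd n, ∃ k : ℤ,
        supW emb S p h - δ < tau S p (emb (h, Multiplicative.ofAdd k)) :=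
      fun h => exists_lt_of_lt_ciSup (sub_lt_self _ hδ)
    choose kh hkh using hnear
    set φ : Prd n → Γ := fun h => emb (h, Multiplicative.ofAdd (kh h))
    have hφ : Function.Injective φ := fun a b hab => congrArg Prod.fst (hinj hab)
    have hcode := code_le_one S h0 h1 hb (E.image φ) (by
      intro l l' hl hl' hlen he
      have pre : ∀ m : List Γ, (∀ x ∈ m, x ∈ E.image φ) →
          ∃ m' : List (Prd n), (∀ x ∈ m', x ∈ E) ∧ m'.map φ = m := by
        intro m
        induction m with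
        | nil => exact fun _ => ⟨[], by simp, rfl⟩
        | cons a m ih =>
          intro hm
          obtain ⟨a', ha', rfl⟩ := Finset.mem_image.1 (hm a (by simp))
          obtain ⟨m', h1, rfl⟩ := ih fun x hx => hm x (List.mem_cons_of_mem _ hx)
          exact ⟨a' :: m', by simpa [ha'] using h1, rfl⟩
      obtain ⟨a, ha, rfl⟩ := pre l hl
      obtain ⟨b, hb, rfl⟩ := pre l' hl'
      have hfst : ∀ m : List (Prd n), ∃ k, (m.map φ).prod = emb (m.prod, k) := by
        intro m
        induction m with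
        | nil => exact ⟨1, (_root_.map_one emb).symm⟩
        | cons a m ih =>
          obtain ⟨k, hk⟩ := ih
          exact ⟨Multiplicative.ofAdd (kh a) * k, by
            rw [List.map_cons, List.prod_cons, hk, List.prod_cons]
            simp only [φ, ← _root_.map_mul, Prod.mk_mul_mk]⟩
      obtain ⟨ka, hka⟩ := hfst a
      obtain ⟨kb, hkb⟩ := hfst b
      rw [hka, hkb] at he
      rw [prod_injective E hp hi a b ha hb (by simpa using hlen) (congrArg Prod.fst (hinj he))])
    rw [Finset.sum_image hφ.injOn] at hcode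
    have hsum := Finset.sum_le_sum (s := E) fun h _ => (hkh h).le
    rw [Finset.sum_sub_distrib, Finset.sum_const, nsmul_eq_mul] at hsum
    have : (E.card : ℝ) * δ ≤ ε := by
      simp only [δ]
      rw [mul_div_assoc', div_le_iff₀ (by positivity)]
      nlinarith
    linarith

open Classical in
/-- Sums over a finite set through the fibres. -/
theorem sum_tau_le (hinj : Function.Injective emb) (h0 : 0 ≤ p) (h1 : p ≤ 1) {c : ℝ}
    (hc : ∀ r ∈ D.R, c ≤ tau S p r⁻¹) {m : ℕ} (V : Finset Γ) (hV : ∀ x ∈ V, D.len x ≤ m) :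
    c * ∑ x ∈ V, tau S p x ≤
      (D.R.card : ℝ) * (2 * (m : ℝ) + 1) * ∑ h ∈ V.image D.fc, supW emb S p h := by
  have h1' : ∀ x ∈ V, c * tau S p x ≤ supW emb S p (D.fc x) := fun x _ => by
    refine le_trans ?_ (le_supW S h0 h1 (D.fc x) (D.zc x))
    have e : emb (D.fc x, Multiplicative.ofAdd (D.zc x)) = x * (D.rc x)⁻¹ :=
      eq_mul_inv_of_mul_eq (D.eq x)
    rw [e, mul_comm]
    exact (mul_le_mul_of_nonneg_left (hc _ (D.mem x)) (tau_nonneg S h0 h1 x)).trans
      (tau_mul S h0 h1 _ _)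
  rw [Finset.mul_sum]
  refine (Finset.sum_le_sum h1').trans ?_
  rw [Finset.sum_comp (supW emb S p) D.fc, Finset.mul_sum]
  refine Finset.sum_le_sum fun h _ => ?_
  rw [nsmul_eq_mul]
  refine mul_le_mul_of_nonneg_right ?_ ((tau_nonneg S h0 h1 _).trans (le_supW S h0 h1 h 0))
  have hcard : (V.filter fun x => D.fc x = h).card ≤ (D.R ×ˢ Finset.Icc (-(m : ℤ)) m).card := by
    refine Finset.card_le_card_of_injOn (fun x => (D.rc x, D.zc x)) (fun x hx => ?_) ?_
    · obtain ⟨hxV, -⟩ := Finset.mem_filter.1 hx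
      have := hV x hxV
      rw [D.len_eq] at this
      exact Finset.mem_product.2 ⟨D.mem x, Finset.mem_Icc.2 ⟨by simp only; omega, by simp only; omega⟩⟩
    · intro x hx y hy hxy
      simp only [Finset.mem_coe, Finset.mem_filter] at hx hy
      obtain ⟨hr, hz⟩ := Prod.mk.injEq _ _ _ _ ▸ hxy
      have e : D.hc x = D.hc y :=
        Prod.ext (hx.2.trans hy.2.symm) (Multiplicative.toAdd.injective hz)
      rw [← D.eq x, ← D.eq y, e, hr]
  rw [Finset.card_product, Int.card_Icc] at hcard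
  have h2 : ((V.filter fun x => D.fc x = h).card : ℝ) ≤ (D.R.card : ℝ) * (2 * m + 1 : ℕ) := by
    rw [← Nat.cast_mul, Nat.cast_le]
    refine hcard.trans (Nat.mul_le_mul_left _ ?_)
    omega
  push_cast at h2
  exact h2

theorem toWord_front_mul (g : Prd n) (i : Fin d) :
    ((gv (front g) * g : Prd n) i).toWord = ltr i (front g i) :: (g i).toWord := by
  rw [Pi.mul_apply, toWord_mul_eq, toWord_gv]
  · rfl
  intro a ha b hb h1
  rw [toWord_gv] at ha
  simp at ha
  subst ha
  obtain ⟨b1, b2⟩ := b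
  cases b2
  · exfalso
    simp only [ltr, front] at h1
    by_cases h : (g i).toWord.head? = some ((0 : Fin (n i + 2)), false)
    · rw [h] at hb
      simp at hb
      subst hb
      simp [h] at h1
    · simp [h] at h1
      exact h (h1 ▸ hb)
  · rfl

theorem toWord_pre (g : Prd n) (l : List (Fin d → Bool)) (i : Fin d) :
    ((((l ++ [front g]).map gv).prod * g : Prd n) i).toWord =
      ((l ++ [front g]).map fun v => ltr i (v i)) ++ (g i).toWord := by
  induction l with
  | nil => simpa using toWord_front_mul g i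
  | cons v l ih =>
    rw [List.cons_append, List.map_cons, List.prod_cons, mul_assoc, Pi.mul_apply, List.map_cons,
      List.cons_append, toWord_mul_eq, toWord_gv, ih]
    · rfl
    intro a ha b hb _
    rw [toWord_gv] at ha
    simp at ha
    rw [ih] at hb
    have hb' : b.2 = true := by
      cases l with
      | nil => simp at hb; rw [← hb]; rfl
      | cons w l => simp at hb; rw [← hb]; rfl
    rw [← ha, hb']
    rfl

theorem words_length_labels (h : Prd n) (l : List (Fin d → Bool)) :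
    ∑ i, (((h i).toWord ++ l.map fun v => (ltr i (v i) : Fin (n i + 2) × Bool))).length =
      (∑ i, ((h i).toWord).length) + d * l.length := by
  simp [Finset.sum_add_distrib]

/-- The inner boundary of the ball. -/
noncomputable def Dec.win (i : ℕ) : Finset Γ := by
  classical exact (D.ball i).filter fun x => ∃ s ∈ gens S, x * s ∉ D.ball i

theorem Dec.mem_win {i : ℕ} {x : Γ} :
    x ∈ D.win S i ↔ D.len x < i ∧ ∃ s ∈ gens S, i ≤ D.len (x * s) := by
  classical
  simp [Dec.win, D.mem_ball]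

theorem size_ge (a b : ZPrd n) : size a ≤ size (a * b) + size b := by
  have h := size_mul_le (a * b) b⁻¹
  rwa [mul_inv_cancel_right, size_inv] at h

/-- The part of the bridge after the labels. -/
noncomputable def brList (M0 : ℕ) {m : ℕ} (v : Fin m → Bool) (g : Prd n) : List (Fin d → Bool) :=
  List.replicate M0 (fun _ => false) ++ (List.ofFn fun j : Fin m => fun _ : Fin d => v j) ++
    List.replicate M0 (fun _ => false) ++ [front g⁻¹]

theorem length_brList (M0 : ℕ) {m : ℕ} (v : Fin m → Bool) (g : Prd n) :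
    (brList M0 v g).length = M0 + m + M0 + 1 := by
  simp [brList]; omega

/-- The target of a bridge. -/
noncomputable def tgt (ext : Prd n → List (Fin d → Bool)) (M0 : ℕ) {m : ℕ} (h : Prd n) (v : Fin m → Bool)
    (g : Prd n) : Prd n :=
  h * (((ext h) ++ brList M0 v g).map gv).prod * g⁻¹

/-- The labels end each coordinate with positive letters and make the family a prefix code. -/
def LabelWords (ext : Prd n → List (Fin d → Bool)) (e : ℕ) : Prop :=
  (∀ h, (ext h).length = e + 1) ∧ ∀ h i, ((h * ((ext h).map gv).prod : Prd n) i).toWord =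
    (h i).toWord ++ (ext h).map fun v => ltr i (v i)

theorem endPos_label {ext : Prd n → List (Fin d → Bool)} {e : ℕ} (hx : LabelWords ext e)
    (h : Prd n) (i : Fin d) : EndPos ((h * ((ext h).map gv).prod : Prd n) i).toWord := by
  rw [hx.2]
  have hne : ext h ≠ [] := List.ne_nil_of_length_pos (by rw [hx.1]; omega)
  refine ⟨(ltr i ((ext h).getLast hne i)).1,
    (h i).toWord ++ ((ext h).dropLast.map fun v => ltr i (v i)), ?_⟩
  conv_lhs => rw [← List.dropLast_append_getLast hne]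
  rw [List.map_append, List.map_singleton, List.append_assoc]
  rfl

theorem toWord_tgt {ext : Prd n → List (Fin d → Bool)} {e : ℕ} (hx : LabelWords ext e) (M0 : ℕ)
    {m : ℕ} (h : Prd n) (v : Fin m → Bool) (g : Prd n) (i : Fin d) :
    (tgt ext M0 h v g i).toWord =
      ((h i).toWord ++ (ext h).map fun u => ltr i (u i)) ++
        ((brList M0 v g).map fun u => ltr i (u i)) ++ (g⁻¹ i).toWord := by
  have hpre : ((((brList M0 v g).map gv).prod * g⁻¹ : Prd n) i).toWord =
      ((brList M0 v g).map fun u => ltr i (u i)) ++ (g⁻¹ i).toWord := toWord_pre g⁻¹ _ i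
  simp only [tgt, List.map_append, List.prod_append]
  rw [← mul_assoc h, mul_assoc _ _ g⁻¹, Pi.mul_apply, toWord_mul_eq]
  · rw [hx.2, hpre]
    simp only [List.append_assoc]
  intro u hu w hw _
  obtain ⟨c, l, hl⟩ := endPos_label hx h i
  rw [hl] at hu
  simp at hu
  rw [hpre] at hw
  have hne : ((brList M0 v g).map fun u => (ltr i (u i) : Fin (n i + 2) × Bool)) ≠ [] := by
    simp [brList]
  rw [List.head?_append_of_ne_nil _ hne] at hw
  obtain ⟨a, -, rfl⟩ := List.mem_map.1 (List.mem_of_mem_head? hw)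
  rw [← hu]
  rfl

theorem tgt_inj (hd : 0 < d) {ext : Prd n → List (Fin d → Bool)} {e : ℕ} (hx : LabelWords ext e)
    (M0 m : ℕ) {X : Finset (Prd n)}
    (hinc : ∀ x ∈ X, ∀ y ∈ X, x ≠ y →
      Incomp (x * ((ext x).map gv).prod) (y * ((ext y).map gv).prod)) :
    Set.InjOn (fun q : (Prd n × (Fin m → Bool)) × Prd n => tgt ext M0 q.1.1 q.1.2 q.2)
      ((X ×ˢ Finset.univ) ×ˢ X : Finset ((Prd n × (Fin m → Bool)) × Prd n)) := by
  rintro ⟨⟨h, v⟩, g⟩ hq ⟨⟨h', v'⟩, g'⟩ hq' he
  simp only [Finset.mem_coe, Finset.mem_product] at hq hq'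
  have hw : ∀ i, (tgt ext M0 h v g i).toWord = (tgt ext M0 h' v' g' i).toWord := fun i =>
    congrArg (fun z : Prd n => (z i).toWord) he
  have hh : h = h' := by
    by_contra hne
    obtain ⟨i, hi1, hi2⟩ := hinc h hq.1.1 h' hq'.1.1 hne
    rw [hx.2, hx.2] at hi1 hi2
    have hw' := hw i
    rw [toWord_tgt hx, toWord_tgt hx, List.append_assoc, List.append_assoc _ _ (g'⁻¹ i).toWord]
      at hw'
    rcases le_total ((h i).toWord ++ (ext h).map fun u : Fin d → Bool => ltr i (u i)).length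
      ((h' i).toWord ++ (ext h').map fun u : Fin d → Bool => ltr i (u i)).length with hl | hl
    · exact hi1 (List.prefix_of_prefix_length_le (hw' ▸ List.prefix_append _ _)
        (List.prefix_append _ _) hl)
    · exact hi2 (List.prefix_of_prefix_length_le (hw'.symm ▸ List.prefix_append _ _)
        (List.prefix_append _ _) hl)
  subst hh
  have hsplit : ∀ i, ((brList M0 v g).map fun u => (ltr i (u i) : Fin (n i + 2) × Bool)) =
      ((brList M0 v' g').map fun u => ltr i (u i)) ∧ (g⁻¹ i).toWord = (g'⁻¹ i).toWord := by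
    intro i
    have hw' := hw i
    rw [toWord_tgt hx, toWord_tgt hx, List.append_assoc, List.append_assoc _ _ (g'⁻¹ i).toWord,
      List.append_cancel_left_eq] at hw'
    exact List.append_inj hw' (by simp [length_brList])
  have hv : v = v' := by
    have h1 := (hsplit ⟨0, hd⟩).1
    simp only [brList, List.map_append, List.append_assoc, List.append_cancel_left_eq] at h1
    have h2 := (List.append_inj h1 (by simp)).1
    simp only [List.map_ofFn, List.ofFn_inj] at h2
    funext j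
    have h3 := congrFun h2 j
    simp only [Function.comp_apply] at h3
    cases hj : v j <;> cases hj' : v' j <;> rw [hj, hj'] at h3 <;>
      first | rfl | exact absurd h3 (ltr_ne _) | exact absurd h3.symm (ltr_ne _)
  have hg : g = g' := inv_injective (funext fun i => toWord_injective (hsplit i).2)
  simp [hv, hg]

/-- One bridge word, joining two fibres of one class. -/
theorem one_bridge (hd : 0 < d) (h0 : 0 < p) (h1 : p ≤ 1) {V0 : Finset Γ} {r : Γ}
    (hgv : ∀ v, Conn 1 (emb (gv v, 1)) (edgesIn (cnb S) V0))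
    (hr : Conn 1 r (edgesIn (cnb S) V0)) (hr' : Conn 1 r⁻¹ (edgesIn (cnb S) V0))
    {Du Lu Ms : ℕ} (hDu : ∀ u ∈ V0, (D.zc u).natAbs ≤ Du) (hLu : ∀ u ∈ V0, D.len u ≤ Lu)
    {ext : Prd n → List (Fin d → Bool)} {e : ℕ} (hx : LabelWords ext e) {m : ℕ} (h g : Prd n)
    (v : Fin m → Bool) (I : Finset ℤ) (hI : ∀ k ∈ I, ∀ l ∈ I, k ≠ l → 2 * Du < (k - l).natAbs)
    (i j : ℤ → ℕ) (hi : ∀ k ∈ I, i k ≤ (∑ t, ((h t).toWord).length) + k.natAbs + Ms)
    (hj : ∀ k ∈ I, j k ≤ (∑ t, ((g t).toWord).length) + k.natAbs + Ms)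
    {s0 : ℝ} (hs0 : 0 < s0) (hs0f : s0 ≤ p ^ ((edgesIn (cnb S) V0).card * m))
    (hsI : s0 * I.card ≤ 1) :
    (p ^ ((edgesIn (cnb S) V0).card * (e + 2 * (Ms + Lu) + 4))) ^ 2 * s0 *
        (∑ k ∈ I, D.val S (i k) p (emb (h, Multiplicative.ofAdd k) * r) *
          D.val S (j k) p (emb (g, Multiplicative.ofAdd k) * r)) ≤
      3 * supW emb S p (tgt ext (Ms + Lu) h v g) := by
  classical
  set M0 := Ms + Lu
  set rest := brList M0 v g
  have hrl : rest.length = M0 + m + M0 + 1 := length_brList M0 v g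
  have hLlen : (ext h ++ rest).length = (e + 1) + (M0 + m + M0 + 1) := by
    simp [hx.1, hrl]
  have hb := bridge_le (q1 := e + 1 + M0) (m := m) D S h0 h1 hgv hr hr' hDu h g⁻¹ (ext h ++ rest)
    (by omega) I hI i j ?_ hs0 hs0f hsI
  · simp only [inv_inv] at hb
    refine le_trans (le_of_eq ?_) (hb.trans (mul_le_mul_of_nonneg_left
      (le_supW S h0.le h1 (tgt ext M0 h v g) 0) (by norm_num)))
    rw [hLlen, show e + 1 + (M0 + m + M0 + 1) - m + 2 = e + 2 * (Ms + Lu) + 4 by omega]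
  intro k hk l hl hkl q hq1 hq2 u hu
  have i1 := hi k hk
  have i2 := hj k hk
  have hL2 := hLu u hu
  have htake : (ext h ++ rest).take q = ext h ++ rest.take (q - (e + 1)) := by
    rw [List.take_append, hx.1, List.take_of_length_le (by rw [hx.1]; omega)]
  have hdrop : (ext h ++ rest).drop q = rest.drop (q - (e + 1)) := by
    rw [List.drop_append, hx.1, List.drop_of_length_le (by rw [hx.1]; omega), List.nil_append]
  set qq := q - (e + 1)
  set hq := h * (((ext h ++ rest).take q).map gv).prod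
  set tail : Prd n := (((ext h ++ rest).drop q).map gv).prod * g⁻¹
  have hlen1 : ∀ t, ((hq t).toWord).length = ((h t).toWord).length + q := by
    intro t
    simp only [hq, htake, List.map_append, List.prod_append, ← mul_assoc]
    rw [toWord_labels (endPos_label hx h), hx.2]
    simp only [List.length_append, List.length_map, hx.1, List.length_take, hrl]
    omega
  have hsum1 : (∑ t, ((h t).toWord).length) + q ≤ ∑ t, ((hq t).toWord).length := by
    simp only [hlen1, Finset.sum_add_distrib, Finset.sum_const, Finset.card_univ,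
      Fintype.card_fin, smul_eq_mul]
    have := Nat.le_mul_of_pos_left q hd
    omega
  have hsum2 : (∑ t, ((g t).toWord).length) + (M0 + 1) ≤ ∑ t, ((tail t).toWord).length := by
    have hcut : rest.drop qq = (List.replicate M0 (fun _ => false) ++
        (List.ofFn fun j : Fin m => fun _ : Fin d => v j) ++
          List.replicate M0 (fun _ => false)).drop qq ++ [front g⁻¹] := by
      simp only [rest, brList]
      rw [List.drop_append_of_le_length (by simp; omega)]
    have hlen2 : ∀ t, ((g t).toWord).length + (M0 + 1) ≤ ((tail t).toWord).length := by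
      intro t
      simp only [tail, hdrop, hcut]
      rw [toWord_pre g⁻¹ _ t]
      simp only [List.length_append, List.length_map, List.length_drop, List.length_singleton,
        List.length_replicate, List.length_ofFn, Pi.inv_apply, FreeGroup.toWord_inv,
        FreeGroup.invRev_length]
      omega
    refine le_trans ?_ (Finset.sum_le_sum fun t _ => hlen2 t)
    simp only [Finset.sum_add_distrib, Finset.sum_const, Finset.card_univ, Fintype.card_fin,
      smul_eq_mul]
    have := Nat.le_mul_of_pos_left M0 hd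
    omega
  have hu2 : D.len u = size (D.hc u) := rfl
  constructor
  · have h3 := size_ge ((hq, Multiplicative.ofAdd l) : ZPrd n) (D.hc u)
    have h4 : D.len (basePt emb h (ext h ++ rest) l q * u) =
        size (((hq, Multiplicative.ofAdd l) : ZPrd n) * D.hc u) := by
      simp only [Dec.len, basePt, D.equiv, hq]
    have h5 : size ((hq, Multiplicative.ofAdd l) : ZPrd n) =
        (∑ t, ((hq t).toWord).length) + l.natAbs := rfl
    omega
  · have he : (emb (h * ((ext h ++ rest).map gv).prod * g⁻¹, 1))⁻¹ *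
        (basePt emb h (ext h ++ rest) l q * u) =
        emb (tail⁻¹, Multiplicative.ofAdd l) * u := by
      rw [← mul_assoc, basePt, ← _root_.map_inv, ← _root_.map_mul]
      congr 2
      simp only [Prod.inv_mk, Prod.mk_mul_mk, inv_one, one_mul]
      congr 1
      conv_lhs => rw [← List.take_append_drop q (ext h ++ rest), List.map_append, List.prod_append]
      simp only [tail, List.take_append_drop]
      group
    rw [he]
    have h3 := size_ge ((tail⁻¹, Multiplicative.ofAdd l) : ZPrd n) (D.hc u)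
    have h4 : D.len (emb (tail⁻¹, Multiplicative.ofAdd l) * u) =
        size (((tail⁻¹, Multiplicative.ofAdd l) : ZPrd n) * D.hc u) := by
      simp only [Dec.len, D.equiv]
    have h6 : size ((tail⁻¹, Multiplicative.ofAdd l) : ZPrd n) =
        (∑ t, ((tail t).toWord).length) + l.natAbs := by
      simp [size, FreeGroup.toWord_inv, FreeGroup.invRev_length]
    omega

/-- Summing a bilinear lower bound over pairs and words. -/
theorem quad_sum {ι κ ν : Type*} [Fintype ν] (X : Finset ι) (Ks : Finset κ) (a : ι → κ → ℝ)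
    (W : ι → ν → ι → ℝ) {c : ℝ} (hc : 0 ≤ c)
    (hW : ∀ h ∈ X, ∀ v, ∀ g ∈ X, c * ∑ k ∈ Ks, a h k * a g k ≤ W h v g) :
    c * (Fintype.card ν : ℝ) * (∑ h ∈ X, ∑ k ∈ Ks, a h k) ^ 2 ≤
      (Ks.card : ℝ) * ∑ h ∈ X, ∑ v, ∑ g ∈ X, W h v g := by
  have hsw : ∑ h ∈ X, ∑ k ∈ Ks, a h k = ∑ k ∈ Ks, ∑ h ∈ X, a h k := Finset.sum_comm
  rw [hsw]
  refine (mul_le_mul_of_nonneg_left (sq_sum_le_card_mul_sum_sq (s := Ks))
    (mul_nonneg hc (Nat.cast_nonneg _))).trans ?_
  rw [mul_left_comm]
  refine mul_le_mul_of_nonneg_left ?_ (Nat.cast_nonneg _)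
  refine le_trans (le_of_eq ?_) (Finset.sum_le_sum fun h hh => Finset.sum_le_sum fun v _ =>
    Finset.sum_le_sum fun g hg => hW h hh v g hg)
  have key : ∑ k ∈ Ks, (∑ h ∈ X, a h k) ^ 2 =
      ∑ h ∈ X, ∑ g ∈ X, ∑ k ∈ Ks, a h k * a g k := by
    simp only [sq, Finset.sum_mul_sum]
    rw [Finset.sum_comm]
    exact Finset.sum_congr rfl fun h _ => Finset.sum_comm
  rw [key]
  simp only [Finset.sum_const, Finset.card_univ, nsmul_eq_mul, ← Finset.mul_sum]
  ring

open Classical in
/-- The estimate at one scale. -/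
theorem atom_bound (hinj : Function.Injective emb) (hd : 0 < d) (h0 : 0 < p) (h1 : p ≤ 1)
    {C : ℝ} {K : ℕ} (hlog : ∀ V : Finset (Prd n),
      ∑ h ∈ V, supW emb S p h ≤ C * ((Nat.log 2 V.card : ℝ) + 1) ^ K)
    (hC : 0 ≤ C) {V0 : Finset Γ}
    (hgv : ∀ v, Conn 1 (emb (gv v, 1)) (edgesIn (cnb S) V0))
    (hr : ∀ r ∈ D.R, Conn 1 r (edgesIn (cnb S) V0) ∧ Conn 1 r⁻¹ (edgesIn (cnb S) V0))
    {Du Lu Ms : ℕ} (hDu : ∀ u ∈ V0, (D.zc u).natAbs ≤ Du) (hLu : ∀ u ∈ V0, D.len u ≤ Lu)
    (hMs : ∀ x, ∀ s ∈ gens S, D.len (x * s) ≤ D.len x + Ms)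
    (G m kk : ℕ) (H : ℕ → Finset Γ) (hH : ∀ i, H i ⊆ D.win S i)
    (hk : 2 * d * Nat.log 2 ((Finset.Ioc G (2 * G)).biUnion H).card ≤ 2 ^ kk)
    {s0 : ℝ} (hs0 : 0 < s0) (hs0f : s0 ≤ p ^ ((edgesIn (cnb S) V0).card * m))
    (hsI : s0 * (4 * (G : ℝ) + 1) ≤ 1) :
    (∑ i ∈ Finset.Ioc G (2 * G), ∑ x ∈ H i, D.val S i p x) ^ 2 * ((2 : ℝ) ^ m * s0 *
        (p ^ ((edgesIn (cnb S) V0).card * (kk + 2 * (Ms + Lu) + 5))) ^ 2) ≤
      12 * ((Ms : ℝ) * D.R.card * (2 * Du + 1)) ^ 2 * (((kk : ℝ) + 1) ^ d) ^ 2 *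
        (4 * (G : ℝ) + 1) *
        (C * ((2 * (Nat.log 2 ((Finset.Ioc G (2 * G)).biUnion H).card : ℝ) + 2 + m) + 1) ^ K) := by
  set I := Finset.Ioc G (2 * G)
  set U := I.biUnion H
  set M0 := Ms + Lu
  have hval0 : ∀ i x, 0 ≤ D.val S i p x := fun i x => tauS_nonneg h0.le h1 _ _ _
  have hwin : ∀ i, ∀ x ∈ H i, D.len x < i ∧ i ≤ D.len x + Ms := fun i x hx => by
    obtain ⟨hlt, s, hs, hout⟩ := (D.mem_win S).1 (hH i hx)
    exact ⟨hlt, hout.trans (hMs x s hs)⟩
  -- the best window of each point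
  have hbest : ∀ x ∈ U, ∃ i, i ∈ I ∧ x ∈ H i ∧
      ∀ j ∈ I, x ∈ H j → D.val S j p x ≤ D.val S i p x := by
    intro x hx
    obtain ⟨i0, hi0, hxi0⟩ := Finset.mem_biUnion.1 hx
    obtain ⟨i, hi, hmax⟩ := Finset.exists_max_image (I.filter fun i => x ∈ H i)
      (fun i => D.val S i p x) ⟨i0, Finset.mem_filter.2 ⟨hi0, hxi0⟩⟩
    exact ⟨i, (Finset.mem_filter.1 hi).1, (Finset.mem_filter.1 hi).2,
      fun j hj hxj => hmax j (Finset.mem_filter.2 ⟨hj, hxj⟩)⟩
  choose! iOf hiI hiH himax using hbest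
  set fs : Γ → ℝ := fun x => D.val S (iOf x) p x
  have hT : ∑ i ∈ I, ∑ x ∈ H i, D.val S i p x ≤ (Ms : ℝ) * ∑ x ∈ U, fs x := by
    rw [Finset.sum_comm' (t' := U) (s' := fun x => I.filter fun i => x ∈ H i) (fun i x => by
      simp only [U, Finset.mem_biUnion, Finset.mem_filter]
      exact ⟨fun h => ⟨⟨h.1, h.2⟩, i, h.1, h.2⟩, fun h => ⟨h.1.1, h.1.2⟩⟩), Finset.mul_sum]
    refine Finset.sum_le_sum fun x hx => ?_
    refine (Finset.sum_le_card_nsmul _ _ (fs x) fun i hi =>
      himax x hx i (Finset.mem_filter.1 hi).1 (Finset.mem_filter.1 hi).2).trans ?_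
    rw [nsmul_eq_mul]
    refine mul_le_mul_of_nonneg_right (Nat.cast_le.2 ((Finset.card_le_card
      (t := Finset.Ioc (D.len x) (D.len x + Ms)) fun i hi =>
        Finset.mem_Ioc.2 (hwin i x (Finset.mem_filter.1 hi).2)).trans (by simp))) (hval0 _ _)
  -- one coset and one residue
  set q0 := 2 * Du + 1
  set key : Γ → Γ × ℕ := fun x => (D.rc x, (D.zc x % (q0 : ℤ)).toNat)
  set KS := D.R ×ˢ Finset.range q0
  have hkey : ∀ x ∈ U, key x ∈ KS := fun x _ => Finset.mem_product.2 ⟨D.mem x,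
    Finset.mem_range.2 (by
      show (D.zc x % (q0 : ℤ)).toNat < q0
      have := Int.emod_lt_of_pos (D.zc x) (show (0 : ℤ) < q0 by simp [q0])
      have := Int.emod_nonneg (D.zc x) (show (q0 : ℤ) ≠ 0 by omega)
      omega)⟩
  obtain ⟨⟨r, ρ⟩, hrρ, hmax⟩ := Finset.exists_max_image KS
    (fun κ => ∑ x ∈ U.filter (fun x => key x = κ), fs x)
    (Finset.Nonempty.product ⟨D.rc 1, D.mem 1⟩ (Finset.nonempty_range_iff.2 (by simp [q0])))
  set U1 := U.filter fun x => key x = (r, ρ)
  have hr0 : r ∈ D.R := (Finset.mem_product.1 hrρ).1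
  have hU1 : ∑ x ∈ U, fs x ≤ ((D.R.card : ℝ) * q0) * ∑ x ∈ U1, fs x := by
    rw [← Finset.sum_fiberwise_of_maps_to (t := KS) (g := key) hkey]
    refine (Finset.sum_le_card_nsmul _ _ _ hmax).trans_eq ?_
    simp [KS, U1]
  set pt : Prd n → ℤ → Γ := fun h k => emb (h, Multiplicative.ofAdd k) * r
  have hrc : ∀ x ∈ U1, D.rc x = r := fun x hx => congrArg Prod.fst (Finset.mem_filter.1 hx).2
  have hpt : ∀ x ∈ U1, pt (D.fc x) (D.zc x) = x := fun x hx => by
    show emb (D.hc x) * r = x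
    rw [← hrc x hx, D.eq]
  have hpt' : ∀ h k, pt h k ∈ U1 → D.hc (pt h k) = (h, Multiplicative.ofAdd k) := fun h k hx => by
    refine hinj (mul_right_cancel (b := r) ?_)
    rw [← hrc _ hx, D.eq, hrc _ hx]
  set Ks := Finset.Icc (-(2 * G : ℤ)) (2 * G)
  set a : Prd n → ℤ → ℝ := fun h k => if pt h k ∈ U1 then fs (pt h k) else 0
  have ha0 : ∀ h k, 0 ≤ a h k := fun h k => by simp only [a]; split_ifs <;> simp [fs, hval0]
  set Uf := U1.image D.fc
  set ω : Prd n → ℝ := fun h => ∑ k ∈ Ks, a h k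
  have hω : ∀ h, ω h = ∑ x ∈ U1.filter (fun x => D.fc x = h), fs x := by
    intro h
    have e : U1.filter (fun x => D.fc x = h) = (Ks.filter fun k => pt h k ∈ U1).image (pt h) := by
      ext x
      simp only [Finset.mem_filter, Finset.mem_image]
      constructor
      · rintro ⟨hx, rfl⟩
        refine ⟨D.zc x, ⟨?_, by rw [hpt x hx]; exact hx⟩, hpt x hx⟩
        have hxU := (Finset.mem_filter.1 hx).1
        have h2 := hwin _ x (hiH x hxU)
        have h3 := (Finset.mem_Ioc.1 (hiI x hxU)).2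
        rw [D.len_eq] at h2
        exact Finset.mem_Icc.2 (by omega)
      · rintro ⟨k, ⟨-, hk⟩, rfl⟩
        exact ⟨hk, congrArg Prod.fst (hpt' h k hk)⟩
    rw [e, Finset.sum_image, Finset.sum_filter]
    intro k hk l hl hkl
    have h2 := congrArg D.hc hkl
    rw [hpt' h k (Finset.mem_filter.1 hk).2, hpt' h l (Finset.mem_filter.1 hl).2] at h2
    exact Multiplicative.ofAdd.injective (congrArg Prod.snd h2)
  have hUf : ∑ x ∈ U1, fs x = ∑ h ∈ Uf, ω h := by
    rw [Finset.sum_congr rfl fun h _ => hω h]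
    exact (Finset.sum_fiberwise_of_maps_to (fun x hx => Finset.mem_image_of_mem _ hx) _).symm
  have hUfcard : Uf.card ≤ U.card := Finset.card_image_le.trans (Finset.card_filter_le _ _)
  obtain ⟨X, hX, ext, hlen, hsum, hword, hinc⟩ := exists_code Uf ω
    (fun h => Finset.sum_nonneg fun k _ => ha0 h k) kk
    (le_trans (Nat.mul_le_mul_left _ (Nat.log_mono_right hUfcard)) hk)
  have hx : LabelWords ext (kk + 1) := ⟨hlen, hword⟩
  set c0 := (edgesIn (cnb S) V0).card
  set β := (p ^ (c0 * (kk + 2 * (Ms + Lu) + 5))) ^ 2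
  have hKs : (Ks.card : ℝ) = 4 * (G : ℝ) + 1 := by
    simp only [Ks, Int.card_Icc]
    rw [show ((2 * G : ℤ) + 1 - -(2 * G : ℤ)).toNat = 4 * G + 1 by omega]
    push_cast
    ring
  have hone : ∀ h ∈ X, ∀ v : Fin m → Bool, ∀ g ∈ X,
      β * s0 * ∑ k ∈ Ks, a h k * a g k ≤ 3 * supW emb S p (tgt ext M0 h v g) := by
    intro h _ v g _
    set Ik := Ks.filter fun k => pt h k ∈ U1 ∧ pt g k ∈ U1
    have hsumk : ∑ k ∈ Ks, a h k * a g k = ∑ k ∈ Ik, D.val S (iOf (pt h k)) p (pt h k) *
        D.val S (iOf (pt g k)) p (pt g k) := by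
      rw [Finset.sum_filter]
      refine Finset.sum_congr rfl fun k _ => ?_
      simp only [a, fs]
      split_ifs <;> simp_all
    rw [hsumk, show β = (p ^ (c0 * ((kk + 1) + 2 * (Ms + Lu) + 4))) ^ 2 by
      simp only [β]; congr 3; omega]
    have hlenpt : ∀ h' k, pt h' k ∈ U1 →
        iOf (pt h' k) ≤ (∑ i, ((h' i).toWord).length) + k.natAbs + Ms := by
      intro h' k hm
      have h2 := (hwin _ _ (hiH _ (Finset.mem_filter.1 hm).1)).2
      rw [show D.len (pt h' k) = (∑ i, ((h' i).toWord).length) + k.natAbs by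
        simp [Dec.len, size, hpt' h' k hm]] at h2
      exact h2
    refine one_bridge D S hd h0 h1 hgv (hr r hr0).1 (hr r hr0).2 hDu hLu hx h g v Ik ?_ _ _
      (fun k hk => hlenpt h k (Finset.mem_filter.1 hk).2.1)
      (fun k hk => hlenpt g k (Finset.mem_filter.1 hk).2.2) hs0 hs0f ?_
    · intro k hk l hl hne
      obtain ⟨-, hk1, -⟩ := Finset.mem_filter.1 hk
      obtain ⟨-, hl1, -⟩ := Finset.mem_filter.1 hl
      have h1 := congrArg Prod.snd ((Finset.mem_filter.1 hk1).2.trans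
        (Finset.mem_filter.1 hl1).2.symm)
      simp only [key, Dec.zc, hpt' h k hk1, hpt' h l hl1, toAdd_ofAdd] at h1
      have e1 := Int.emod_nonneg k (show (q0 : ℤ) ≠ 0 by omega)
      have e2 := Int.emod_nonneg l (show (q0 : ℤ) ≠ 0 by omega)
      have h2 : (q0 : ℤ) ∣ (k - l) :=
        Int.dvd_of_emod_eq_zero (Int.emod_eq_emod_iff_emod_sub_eq_zero.1 (by omega))
      have h3 := Nat.le_of_dvd (by omega) (Int.natCast_dvd.1 h2)
      omega
    · refine le_trans (mul_le_mul_of_nonneg_left ?_ hs0.le) hsI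
      exact (Nat.cast_le.2 (Finset.card_filter_le _ _)).trans (le_of_eq hKs)
  -- summation
  set Tset := ((X ×ˢ (Finset.univ : Finset (Fin m → Bool))) ×ˢ X).image
    fun q => tgt ext M0 q.1.1 q.1.2 q.2
  have hsumT : ∑ h ∈ X, ∑ v : Fin m → Bool, ∑ g ∈ X, 3 * supW emb S p (tgt ext M0 h v g) =
      3 * ∑ t ∈ Tset, supW emb S p t := by
    rw [Finset.sum_image (tgt_inj hd hx M0 m hinc), Finset.sum_product, Finset.sum_product]
    simp only [Finset.mul_sum]
  have hbig : β * s0 * 2 ^ m * ((∑ h ∈ X, ω h) ^ 2) ≤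
      (4 * (G : ℝ) + 1) * (3 * ∑ t ∈ Tset, supW emb S p t) := by
    have h := quad_sum X Ks a (fun h (v : Fin m → Bool) g => 3 * supW emb S p (tgt ext M0 h v g))
      (by positivity : 0 ≤ β * s0) hone
    rw [hsumT, hKs, Fintype.card_fun, Fintype.card_fin, Fintype.card_bool] at h
    push_cast at h
    exact h
  have hTset : (Nat.log 2 Tset.card : ℝ) ≤ 2 * (Nat.log 2 U.card : ℝ) + 2 + m := by
    have h1 : Tset.card ≤ U.card * 2 ^ m * U.card := by
      refine Finset.card_image_le.trans ?_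
      rw [Finset.card_product, Finset.card_product, Finset.card_univ, Fintype.card_fun,
        Fintype.card_fin, Fintype.card_bool]
      have := (Finset.card_le_card hX).trans hUfcard
      gcongr
    have h2 := Nat.lt_pow_succ_log_self one_lt_two U.card
    have h3 : Tset.card ≤ 2 ^ ((Nat.log 2 U.card + 1) + m + (Nat.log 2 U.card + 1)) := by
      rw [pow_add, pow_add]
      exact h1.trans (Nat.mul_le_mul (Nat.mul_le_mul_right _ h2.le) h2.le)
    have h4 := Nat.log_mono_right (b := 2) h3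
    rw [Nat.log_pow one_lt_two] at h4
    have h5 : (Nat.log 2 Tset.card : ℝ) ≤
        ((Nat.log 2 U.card + 1) + m + (Nat.log 2 U.card + 1) : ℕ) := Nat.cast_le.2 h4
    push_cast at h5
    linarith
  have hW : ∑ t ∈ Tset, supW emb S p t ≤
      C * ((2 * (Nat.log 2 U.card : ℝ) + 2 + m) + 1) ^ K :=
    (hlog Tset).trans (mul_le_mul_of_nonneg_left (pow_le_pow_left₀ (by positivity)
      (by linarith) _) hC)
  have hωX : 0 ≤ ∑ h ∈ X, ω h := Finset.sum_nonneg fun h _ => Finset.sum_nonneg fun k _ => ha0 h k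
  have hTX : ∑ i ∈ I, ∑ x ∈ H i, D.val S i p x ≤
      (Ms : ℝ) * D.R.card * q0 * (2 * ((kk : ℝ) + 1) ^ d) * ∑ h ∈ X, ω h := by
    refine hT.trans ((mul_le_mul_of_nonneg_left (hU1.trans (mul_le_mul_of_nonneg_left
      (hUf.trans_le hsum) (by positivity))) (Nat.cast_nonneg _)).trans (le_of_eq ?_))
    ring
  have hT0 : 0 ≤ ∑ i ∈ I, ∑ x ∈ H i, D.val S i p x :=
    Finset.sum_nonneg fun i _ => Finset.sum_nonneg fun x _ => hval0 i x
  have hq0 : (q0 : ℝ) = 2 * Du + 1 := by simp [q0]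
  rw [hq0] at hTX
  calc (∑ i ∈ I, ∑ x ∈ H i, D.val S i p x) ^ 2 * ((2 : ℝ) ^ m * s0 * β)
      ≤ ((Ms : ℝ) * D.R.card * (2 * Du + 1) * (2 * ((kk : ℝ) + 1) ^ d) * ∑ h ∈ X, ω h) ^ 2 *
        ((2 : ℝ) ^ m * s0 * β) :=
        mul_le_mul_of_nonneg_right (pow_le_pow_left₀ hT0 hTX 2) (by positivity)
    _ = 4 * ((Ms : ℝ) * D.R.card * (2 * Du + 1)) ^ 2 * (((kk : ℝ) + 1) ^ d) ^ 2 *
        (β * s0 * 2 ^ m * (∑ h ∈ X, ω h) ^ 2) := by ring
    _ ≤ 4 * ((Ms : ℝ) * D.R.card * (2 * Du + 1)) ^ 2 * (((kk : ℝ) + 1) ^ d) ^ 2 *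
        ((4 * (G : ℝ) + 1) * (3 * (C * ((2 * (Nat.log 2 U.card : ℝ) + 2 + m) + 1) ^ K))) :=
        mul_le_mul_of_nonneg_left (hbig.trans (by gcongr)) (by positivity)
    _ = _ := by ring

end Vale.Agent.P165FreeProd.WithZ
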