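import Vale.Agent.P165FreeProd.Z.Estimate

/-!
# The exit kernel of a ball has small convolution norm at the critical value
-/

namespace Vale.Agent.P165FreeProd.WithZ

open Vale.Agent.P165 Filter Topology

variable {d : ℕ} {n : Fin d → ℕ} {Γ : Type*} [Group Γ] [DecidableEq Γ] {emb : ZPrd n →* Γ}
  (D : Dec emb) (S : Finset Γ)

/-- A bound on the squared norm of the exit kernel. -/
noncomputable def Dec.kap (i : ℕ) (H : Finset Γ) (p : ℝ) : ℝ :=
  4 * ((gens S).card : ℝ) ^ 2 * ((∑ x ∈ H, D.val S i p x) ^ 2 +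
    ((D.R.card : ℝ) * D.R.card * (((i : ℝ) + 1) ^ d * ((i : ℝ) + 1) ^ d) * (2 * (i : ℝ) + 1)) ^ 2 *
      ∑ x ∈ D.win S i \ H, D.val S i p x ^ 2)

theorem continuous_kap (i : ℕ) (H : Finset Γ) : Continuous (D.kap S i H) := by
  have hc : ∀ x, Continuous fun p => D.val S i p x := fun x => continuous_Pr _ _
  unfold Dec.kap
  fun_prop

variable {p : ℝ}

/-- A kernel with norm below one keeps the two-point function square summable. -/
theorem sq_le_of_kap (hinj : Function.Injective emb) (h0 : 0 ≤ p) (h1 : p ≤ 1) {i : ℕ}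
    (hi : D.len 1 < i) {H : Finset Γ} (hH : H ⊆ D.win S i) (hk : D.kap S i H p < 1)
    (F : Finset Γ) :
    ∑ x ∈ F, tau S p x ^ 2 ≤ 2 * ((D.ball i).card : ℝ) / (1 - D.kap S i H p) := by
  classical
  refine le_of_tendsto (tendsto_finsetSum F fun x _ => (tendsto_tau S h0 h1 x).pow 2)
    (Eventually.of_forall fun Λ => ?_)
  set N := Λ.card
  set a := aN S p N
  set U := reach (cnb S) N 1 ∪ F
  set M := ∑ z ∈ U, a z ^ 2
  set T := gens S
  set W := D.win S i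
  set f := D.val S i p
  set P : ℝ := (D.R.card : ℝ) * D.R.card * (((i : ℝ) + 1) ^ d * ((i : ℝ) + 1) ^ d) *
    (2 * (i : ℝ) + 1)
  have hf : ∀ x, 0 ≤ f x := fun x => tauS_nonneg h0 h1 _ _ _
  have ha : ∀ x, 0 ≤ a x := fun x => aN_nonneg S h0 h1 N x
  have hsupp : ∀ y, a y ≠ 0 → y ∈ U := fun y hy =>
    Finset.mem_union_left _ (by_contra fun hh => hy (aN_eq_zero S h0 h1 hh))
  have hMg : ∀ g : Γ, ∑ z ∈ U, a (g * z) ^ 2 ≤ M := by
    intro g
    rw [← Finset.sum_image (f := fun y => a y ^ 2) (g := (g * ·))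
      fun a _ b _ hab => mul_left_cancel hab]
    refine (Finset.sum_le_sum_of_subset_of_nonneg (t := U.image (g * ·) ∪ U)
      Finset.subset_union_left fun v _ _ => sq_nonneg _).trans (le_of_eq ?_)
    exact (Finset.sum_subset Finset.subset_union_right fun v _ hv => by
      rw [by_contra fun h => hv (hsupp v h)]; ring).symm
  -- the first exit
  have hstep : ∀ z, a z ≤ (if z ∈ D.ball i then 1 else 0) +
      ∑ s ∈ T, ((∑ x ∈ H, f x * a (s⁻¹ * (x⁻¹ * z))) +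
        ∑ x ∈ W \ H, f x * a (s⁻¹ * (x⁻¹ * z))) := by
    intro z
    refine (aN_exit S h0 h1 N ((D.mem_ball).2 hi) z).trans (add_le_add le_rfl ?_)
    refine (mul_le_of_le_one_left (Finset.sum_nonneg fun x _ => mul_nonneg (hf x)
      (Finset.sum_nonneg fun s _ => ha _)) h1).trans ?_
    have hsplit : ∀ s, (∑ x ∈ H, f x * a (s⁻¹ * (x⁻¹ * z))) +
        ∑ x ∈ W \ H, f x * a (s⁻¹ * (x⁻¹ * z)) = ∑ x ∈ W, f x * a (s⁻¹ * (x⁻¹ * z)) := fun s => by
      rw [add_comm, Finset.sum_sdiff hH]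
    rw [Finset.sum_congr rfl fun s _ => hsplit s, Finset.sum_comm]
    simp only [W, Dec.win]
    rw [Finset.sum_filter]
    refine Finset.sum_le_sum fun x _ => ?_
    rw [Finset.mul_sum]
    split_ifs with hx
    · simp only [mul_inv_rev, mul_assoc]
      exact Finset.sum_le_sum_of_subset_of_nonneg (Finset.filter_subset _ _)
        fun s _ _ => mul_nonneg (hf x) (ha _)
    · simp only [not_exists, not_and, not_not] at hx
      rw [Finset.filter_false_of_mem fun s hs => not_not.2 (hx s hs), Finset.sum_empty]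
  -- the two parts
  have hA : ∀ s, ∑ z ∈ U, (∑ x ∈ H, f x * a (s⁻¹ * (x⁻¹ * z))) ^ 2 ≤ (∑ x ∈ H, f x) ^ 2 * M := by
    intro s
    calc ∑ z ∈ U, (∑ x ∈ H, f x * a (s⁻¹ * (x⁻¹ * z))) ^ 2
        ≤ ∑ z ∈ U, (∑ x ∈ H, f x) * ∑ x ∈ H, f x * a (s⁻¹ * (x⁻¹ * z)) ^ 2 :=
          Finset.sum_le_sum fun z _ => Finset.sum_sq_le_sum_mul_sum_of_sq_le_mul _
            (fun x _ => hf x) (fun x _ => mul_nonneg (hf x) (sq_nonneg _))
            fun x _ => le_of_eq (by ring)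
      _ = (∑ x ∈ H, f x) * ∑ x ∈ H, f x * ∑ z ∈ U, a ((s⁻¹ * x⁻¹) * z) ^ 2 := by
          rw [← Finset.mul_sum, Finset.sum_comm]
          simp only [Finset.mul_sum, mul_assoc]
      _ ≤ (∑ x ∈ H, f x) * ∑ x ∈ H, f x * M := mul_le_mul_of_nonneg_left
          (Finset.sum_le_sum fun x _ => mul_le_mul_of_nonneg_left (hMg _) (hf x))
          (Finset.sum_nonneg fun x _ => hf x)
      _ = _ := by rw [← Finset.sum_mul]; ring
  have hB : ∀ s, ∑ z ∈ U, (∑ x ∈ W \ H, f x * a (s⁻¹ * (x⁻¹ * z))) ^ 2 ≤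
      P ^ 2 * ((∑ x ∈ W \ H, f x ^ 2) * M) := by
    intro s
    have h := conv_le D hinj (m := i) (A := W \ H) (fun x hx =>
      ((D.mem_ball).1 (Finset.mem_filter.1 (Finset.mem_sdiff.1 hx).1).1).le) U (U.image (s * ·)) f
      (fun y => a (s⁻¹ * y))
    rw [Finset.sum_image (f := fun y => a (s⁻¹ * y) ^ 2) fun a _ b _ hab => mul_left_cancel hab]
      at h
    simp only [inv_mul_cancel_left] at h
    refine le_trans (le_of_eq (Finset.sum_congr rfl fun z _ => ?_)) h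
    rw [Finset.sum_filter_of_ne]
    intro x _ hne
    exact Finset.mem_image.2 ⟨s⁻¹ * (x⁻¹ * z), hsupp _ (right_ne_zero_of_mul hne), by group⟩
  have hM : M ≤ 2 * ((D.ball i).card : ℝ) + D.kap S i H p * M := by
    have hcard : (0 : ℝ) ≤ T.card := Nat.cast_nonneg _
    have hz : ∀ z, a z ^ 2 ≤ 2 * (if z ∈ D.ball i then (1 : ℝ) else 0) +
        4 * (T.card : ℝ) * ∑ s ∈ T, ((∑ x ∈ H, f x * a (s⁻¹ * (x⁻¹ * z))) ^ 2 +
          (∑ x ∈ W \ H, f x * a (s⁻¹ * (x⁻¹ * z))) ^ 2) := by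
      intro z
      set u : ℝ := if z ∈ D.ball i then (1 : ℝ) else 0
      set v := fun s => (∑ x ∈ H, f x * a (s⁻¹ * (x⁻¹ * z))) +
        ∑ x ∈ W \ H, f x * a (s⁻¹ * (x⁻¹ * z))
      have hu : u ^ 2 = u := by simp only [u]; split_ifs <;> norm_num
      have h2 : (∑ s ∈ T, v s) ^ 2 ≤ T.card * ∑ s ∈ T, v s ^ 2 := sq_sum_le_card_mul_sum_sq
      have h3 : ∑ s ∈ T, v s ^ 2 ≤ ∑ s ∈ T, 2 * ((∑ x ∈ H, f x * a (s⁻¹ * (x⁻¹ * z))) ^ 2 +
          (∑ x ∈ W \ H, f x * a (s⁻¹ * (x⁻¹ * z))) ^ 2) :=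
        Finset.sum_le_sum fun s _ => add_sq_le
      rw [← Finset.mul_sum] at h3
      have h4 : a z ^ 2 ≤ (u + ∑ s ∈ T, v s) ^ 2 := pow_le_pow_left₀ (ha z) (hstep z) 2
      have h5 := add_sq_le (a := u) (b := ∑ s ∈ T, v s)
      nlinarith [mul_le_mul_of_nonneg_left h3 hcard]
    refine (Finset.sum_le_sum fun z _ => hz z).trans ?_
    rw [Finset.sum_add_distrib, ← Finset.mul_sum, ← Finset.mul_sum]
    refine add_le_add (mul_le_mul_of_nonneg_left ?_ (by norm_num)) ?_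
    · rw [Finset.sum_boole]
      exact Nat.cast_le.2 (Finset.card_le_card fun v hv => (Finset.mem_filter.1 hv).2)
    rw [Finset.sum_comm]
    refine (mul_le_mul_of_nonneg_left (Finset.sum_le_sum (g := fun _ =>
      (∑ x ∈ H, f x) ^ 2 * M + P ^ 2 * ((∑ x ∈ W \ H, f x ^ 2) * M)) fun s _ => ?_)
      (by positivity)).trans (le_of_eq ?_)
    · rw [Finset.sum_add_distrib]
      exact add_le_add (hA s) (hB s)
    · rw [Finset.sum_const, nsmul_eq_mul]
      simp only [Dec.kap, T, f, P, W]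
      ring
  rw [le_div_iff₀ (by linarith)]
  refine le_trans (mul_le_mul_of_nonneg_right ((Finset.sum_le_sum fun x _ => pow_le_pow_left₀
    (tauS_nonneg h0 h1 _ _ _) (tauS_le_aN S h0 h1 Λ le_rfl x) 2).trans
    (Finset.sum_le_sum_of_subset_of_nonneg (t := U) Finset.subset_union_right
      fun v _ _ => sq_nonneg _)) (by linarith)) ?_
  change M * (1 - D.kap S i H p) ≤ _
  linarith

/-- A finite set whose edges join the unit to each element of a given finite set. -/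
theorem exists_conn_set (hS : Subgroup.closure (S : Set Γ) = ⊤) (A : Finset Γ) :
    ∃ V0 : Finset Γ, ∀ x ∈ A, Conn 1 x (edgesIn (cnb S) V0) := by
  classical
  choose w _ using fun x : Γ => ((connected_cay S hS).preconnected 1 x).exists_isPath
  refine ⟨A.biUnion fun x => (w x).support.toFinset, fun x hx => ⟨(w x).transfer _ fun e he => ?_⟩⟩
  induction e using Sym2.ind with
  | _ u v =>
    have hadj := (w x).adj_of_mem_edges he
    simp only [edgeGraph, SimpleGraph.edgeSet_fromEdgeSet, Set.mem_sdiff, Finset.mem_coe,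
      Sym2.mem_diagSet, Sym2.mk_isDiag_iff]
    exact ⟨(mem_edgesIn (lf_cay S)).2 ⟨hadj,
      Finset.mem_biUnion.2 ⟨x, hx, List.mem_toFinset.2 ((w x).fst_mem_support_of_mem_edges he)⟩,
      Finset.mem_biUnion.2 ⟨x, hx, List.mem_toFinset.2 ((w x).snd_mem_support_of_mem_edges he)⟩⟩,
      hadj.ne⟩

/-- The elementary inequality behind the choice of the scale. -/
theorem scale_le {Q C : ℝ} {d K a j kk L c1 c2 e0 : ℕ} (hC : 0 ≤ C)
    (hk : (kk : ℝ) + 1 ≤ 2 * (c2 : ℝ) * ((j : ℝ) + 1)) (hL : (L : ℝ) ≤ (c1 : ℝ) * ((j : ℝ) + 1)) :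
    12 * Q ^ 2 * (((kk : ℝ) + 1) ^ d) ^ 2 * (4 * (2 : ℝ) ^ (a * j) + 1) *
        (C * ((2 * (L : ℝ) + 2 + ((j + 3 : ℕ) : ℝ)) + 1) ^ K) *
        ((((2 * (c2 : ℝ)) * ((j : ℝ) + 1)) ^ a * 2 ^ (a * e0)) ^ 2 * 2 ^ (a * (j + 3)) /
          2 ^ (j + 3)) ≤
      ((2 : ℝ) ^ (a * j)) ^ 2 *
        (12 * Q ^ 2 * (2 * (c2 : ℝ)) ^ (2 * d) * C * (2 * (c1 : ℝ) + 6) ^ K * 5 *
          (((2 * (c2 : ℝ)) ^ a * 2 ^ (a * e0)) ^ 2) * 2 ^ (3 * a) *
            ((j : ℝ) + 1) ^ (2 * d + 2 * a + K) / (2 : ℝ) ^ j) := by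
  have hj0 : (0 : ℝ) ≤ (j : ℝ) := Nat.cast_nonneg _
  have hQ : 0 ≤ 12 * Q ^ 2 := mul_nonneg (by norm_num) (sq_nonneg Q)
  have k1 : (((kk : ℝ) + 1) ^ d) ^ 2 ≤ ((2 * (c2 : ℝ) * ((j : ℝ) + 1)) ^ d) ^ 2 :=
    pow_le_pow_left₀ (by positivity) (pow_le_pow_left₀ (by positivity) hk _) _
  have k2 : C * ((2 * (L : ℝ) + 2 + ((j + 3 : ℕ) : ℝ)) + 1) ^ K ≤
      C * ((2 * (c1 : ℝ) + 6) * ((j : ℝ) + 1)) ^ K := by
    refine mul_le_mul_of_nonneg_left (pow_le_pow_left₀ (by positivity) ?_ _) hC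
    push_cast
    nlinarith
  have k3 : 4 * (2 : ℝ) ^ (a * j) + 1 ≤ 5 * (2 : ℝ) ^ (a * j) := by
    linarith [one_le_pow₀ (show (1 : ℝ) ≤ 2 by norm_num) (n := a * j)]
  set b1 : ℝ := ((2 * (c2 : ℝ)) * ((j : ℝ) + 1)) ^ a * 2 ^ (a * e0) with hb1
  have k4 : b1 ^ 2 * 2 ^ (a * (j + 3)) / 2 ^ (j + 3) ≤ b1 ^ 2 * 2 ^ (a * (j + 3)) / 2 ^ j :=
    div_le_div_of_nonneg_left (by positivity) (by positivity)
      (pow_le_pow_right₀ one_le_two (Nat.le_add_right _ _))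
  refine (mul_le_mul (mul_le_mul (mul_le_mul (mul_le_mul_of_nonneg_left k1 hQ) k3 (by positivity)
    (by positivity)) k2 (by positivity) (by positivity)) k4 (by positivity)
    (by positivity)).trans_eq ?_
  rw [hb1, mul_add a j 3, mul_comm a 3, pow_add (2 : ℝ) (a * j)]
  simp only [mul_pow, pow_add, ← pow_mul]
  ring

/-- The light points of a window. -/
theorem light_le {R Y1 rest : ℝ} {d K G i : ℕ} (hi : i ≤ 2 * G) (hR : 0 ≤ R) (hrest0 : 0 ≤ rest)
    (hrest : rest * ((G : ℝ) + 1) ^ (4 * d + K + 4) ≤ Y1 * ((G : ℝ) + 1) ^ (K + 1)) :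
    (R * (((i : ℝ) + 1) ^ d * ((i : ℝ) + 1) ^ d) * (2 * (i : ℝ) + 1)) ^ 2 * rest ≤
      16 * R ^ 2 * (2 : ℝ) ^ (4 * d) * Y1 / ((G : ℝ) + 1) := by
  have hi' : (i : ℝ) ≤ 2 * G := by exact_mod_cast hi
  set g : ℝ := (G : ℝ) + 1
  have g0 : 0 < g := by positivity
  have h1 : (i : ℝ) + 1 ≤ 2 * g := by simp only [g]; linarith
  have h2 : 2 * (i : ℝ) + 1 ≤ 4 * g := by simp only [g]; linarith
  have hP : (R * (((i : ℝ) + 1) ^ d * ((i : ℝ) + 1) ^ d) * (2 * (i : ℝ) + 1)) ^ 2 ≤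
      (R * ((2 * g) ^ d * (2 * g) ^ d) * (4 * g)) ^ 2 := by gcongr
  rw [le_div_iff₀ g0]
  refine le_of_mul_le_mul_right ?_ (pow_pos g0 (4 * d + K + 3))
  rw [mul_assoc, ← pow_succ', mul_assoc]
  refine (mul_le_mul hP hrest (mul_nonneg hrest0 (by positivity)) (sq_nonneg _)).trans_eq ?_
  simp only [mul_pow, pow_add, ← pow_mul]
  ring

/-- Some ball has an exit kernel of small norm at the critical value. -/
theorem exists_kap_lt (hinj : Function.Injective emb) (hd : 0 < d)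
    (hS : Subgroup.closure (S : Set Γ) = ⊤) {p0 q : ℝ} (hp0 : 0 < p0) (hq : p0 < q) (hq1 : q ≤ 1)
    (hsub : ∀ t, p0 ≤ t → t < q → Subcrit S t) :
    ∃ i, D.len 1 < i ∧ ∃ H, H ⊆ D.win S i ∧ D.kap S i H q < 1 := by
  classical
  set A0 := ((Finset.univ : Finset (Fin d → Bool)).image fun v => emb (gv v, 1)) ∪
    (D.R ∪ D.R.image (·⁻¹))
  obtain ⟨k0, hk0⟩ := exists_uniform_pow S hS A0
  obtain ⟨V0, hV0⟩ := exists_conn_set S hS A0
  set c0 := (edgesIn (cnb S) V0).card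
  set Du := V0.sup fun u => (D.zc u).natAbs
  set Lu := V0.sup D.len
  obtain ⟨Ms, hMs⟩ := exists_step D (gens S)
  obtain ⟨B, hB⟩ := exists_card_ball D
  obtain ⟨b, hb⟩ : ∃ b, B ≤ 2 ^ b := ⟨B, Nat.lt_two_pow_self.le⟩
  set c := p0 ^ k0
  have hc : 0 < c := pow_pos hp0 _
  obtain ⟨C, K, hC, hlog⟩ := weight_le_log (n := n) hd hc
  have hgv : ∀ v, Conn 1 (emb (gv v, 1)) (edgesIn (cnb S) V0) := fun v =>
    hV0 _ (Finset.mem_union_left _ (Finset.mem_image_of_mem _ (Finset.mem_univ v)))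
  have hr : ∀ r ∈ D.R, Conn 1 r (edgesIn (cnb S) V0) ∧ Conn 1 r⁻¹ (edgesIn (cnb S) V0) :=
    fun r hr => ⟨hV0 _ (Finset.mem_union_right _ (Finset.mem_union_left _ hr)),
      hV0 _ (Finset.mem_union_right _ (Finset.mem_union_right _ (Finset.mem_image_of_mem _ hr)))⟩
  have hct : ∀ t, p0 ≤ t → t < q → ∀ x ∈ A0, c ≤ tau S t x := fun t ht htq x hx =>
    (pow_le_pow_left₀ hp0.le ht _).trans (hk0 t (hp0.le.trans ht) (htq.le.trans hq1) x hx)
  have hlogt : ∀ t, p0 ≤ t → t < q → ∀ V : Finset (Prd n),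
      ∑ h ∈ V, supW emb S t h ≤ C * ((Nat.log 2 V.card : ℝ) + 1) ^ K := fun t ht htq =>
    hlog _ (weight_supW S hinj (hp0.le.trans ht) (htq.le.trans hq1) (hsub t ht htq) fun v =>
      hct t ht htq _ (Finset.mem_union_left _ (Finset.mem_image_of_mem _ (Finset.mem_univ v))))
  -- finite sums pass to the limit
  have hlim : ∀ g : ℝ → ℝ, Continuous g → ∀ r : ℝ, (∀ t, p0 ≤ t → t < q → g t ≤ r) → g q ≤ r := by
    intro g hg r hr
    refine le_of_tendsto ((hg.tendsto q).mono_left (nhdsWithin_le_nhds (s := Set.Iio q))) ?_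
    filter_upwards [Ico_mem_nhdsLT hq] with t ht using hr t ht.1 ht.2
  have hval : ∀ i x, Continuous fun t => D.val S i t x := fun i x => continuous_Pr _ _
  have hle : ∀ i x t, p0 ≤ t → t < q → D.val S i t x ≤ tau S t x := fun i x t ht htq =>
    tauS_le_tau S (hp0.le.trans ht) (htq.le.trans hq1) _ x
  -- the constants
  set Y1 : ℝ := 4 * (D.R.card : ℝ) * (C * (3 * (b : ℝ) + 1) ^ K) / c
  have hY1 : 0 ≤ Y1 := by positivity
  obtain ⟨a1, ha1⟩ : ∃ a1 : ℕ, Y1 ≤ 2 ^ a1 :=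
    (pow_unbounded_of_one_lt _ one_lt_two).imp fun _ h => h.le
  obtain ⟨a, ha, ha0⟩ : ∃ a : ℕ, 1 ≤ a ∧ (1 / 2 : ℝ) ^ a ≤ p0 ^ c0 := by
    obtain ⟨a, ha⟩ := exists_pow_lt_of_lt_one (pow_pos hp0 c0) (by norm_num : (1 / 2 : ℝ) < 1)
    exact ⟨a + 1, by omega, (pow_le_pow_of_le_one (by norm_num) (by norm_num) (Nat.le_succ _)).trans
      ha.le⟩
  set e0 := 2 * (Ms + Lu) + 5
  set A := 4 * d + K + 4
  set c1 := a1 + (a + 1) * (K + 1 + A)
  set c2 := 2 * d * c1 + 1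
  set E := 2 * d + 2 * a + K
  set r : ℝ := (D.R.card : ℝ) * D.R.card
  set Z : ℝ := 16 * r ^ 2 * (2 : ℝ) ^ (4 * d) * Y1
  set W : ℝ := 12 * ((Ms : ℝ) * D.R.card * (2 * Du + 1)) ^ 2 * (2 * (c2 : ℝ)) ^ (2 * d) * C *
    (2 * (c1 : ℝ) + 6) ^ K * 5 * (((2 * (c2 : ℝ)) ^ a * 2 ^ (a * e0)) ^ 2) * 2 ^ (3 * a)
  have hZ : 0 ≤ Z := by positivity
  -- the scale
  obtain ⟨j, hj1, hj2, hj3⟩ : ∃ j : ℕ, D.len 1 < j ∧
      W * ((j : ℝ) + 1) ^ E / (2 : ℝ) ^ j * (8 * ((gens S).card : ℝ) ^ 2) < 1 / 2 ∧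
      Z / (2 : ℝ) ^ j * (8 * ((gens S).card : ℝ) ^ 2) < 1 / 2 := by
    have t1 : Tendsto (fun j : ℕ => (((j : ℝ) + 1) ^ E) / (2 : ℝ) ^ j) atTop (𝓝 0) := by
      have := ((tendsto_pow_const_div_const_pow_of_one_lt E (one_lt_two (α := ℝ))).comp
        (tendsto_add_atTop_nat 1)).mul_const 2
      simp only [Function.comp_def, zero_mul, Nat.cast_add, Nat.cast_one, pow_succ] at this
      refine this.congr fun j => ?_
      field_simp
    have t2 : Tendsto (fun j : ℕ => (1 : ℝ) / (2 : ℝ) ^ j) atTop (𝓝 0) := by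
      simpa [one_div, ← inv_pow] using
        tendsto_pow_atTop_nhds_zero_of_lt_one (by norm_num : (0 : ℝ) ≤ 2⁻¹) (by norm_num)
    have e1 := ((t1.const_mul W).mul_const (8 * ((gens S).card : ℝ) ^ 2)).eventually
      (gt_mem_nhds (show W * 0 * (8 * ((gens S).card : ℝ) ^ 2) < 1 / 2 by norm_num))
    have e2 := ((t2.const_mul Z).mul_const (8 * ((gens S).card : ℝ) ^ 2)).eventually
      (gt_mem_nhds (show Z * 0 * (8 * ((gens S).card : ℝ) ^ 2) < 1 / 2 by norm_num))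
    obtain ⟨j, h1, h2, h3⟩ := (e1.and (e2.and (eventually_gt_atTop (D.len 1)))).exists
    exact ⟨j, h3, by rwa [mul_div_assoc], by rwa [mul_one_div] at h2⟩
  set G := 2 ^ (a * j)
  have hjG : 2 ^ j ≤ G := Nat.pow_le_pow_right (by norm_num) (Nat.le_mul_of_pos_left _ (by omega))
  have hGpos : 0 < G := Nat.two_pow_pos _
  set m := j + 3
  set N := c2 * (j + 1)
  set kk := Nat.log 2 N + 1
  set H : ℕ → Finset Γ := fun i =>
    (D.win S i).filter fun x => 1 < D.val S i q x * ((G : ℝ) + 1) ^ A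
  set I := Finset.Ioc G (2 * G)
  set U := I.biUnion H
  have hWball : ∀ i ∈ I, D.win S i ⊆ D.ball (2 * G) := fun i hi x hx =>
    (D.mem_ball).2 (((D.mem_win S).1 hx).1.trans_le (Finset.mem_Ioc.1 hi).2)
  have hUball : U ⊆ D.ball (2 * G) := fun x hx => by
    obtain ⟨i, hi, hxi⟩ := Finset.mem_biUnion.1 hx
    exact hWball i hi (Finset.mem_filter.1 hxi).1
  have hmass : ∀ t, p0 ≤ t → t < q → ∀ V : Finset Γ, V ⊆ D.ball (2 * G) →
      ∑ x ∈ V, tau S t x ≤ Y1 * ((G : ℝ) + 1) ^ (K + 1) := by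
    intro t ht htq V hV
    have h := (sum_tau_le D S hinj (hp0.le.trans ht) (htq.le.trans hq1) (fun r hr =>
      hct t ht htq _ (Finset.mem_union_right _ (Finset.mem_union_right _
        (Finset.mem_image_of_mem _ hr)))) (m := 2 * G) V
      fun x hx => ((D.mem_ball).1 (hV hx)).le).trans
      (mul_le_mul_of_nonneg_left (hlogt t ht htq _) (by positivity))
    rw [← le_div_iff₀' hc] at h
    refine h.trans ?_
    have hl : Nat.log 2 (V.image D.fc).card ≤ (2 * G + 1) * b := by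
      refine (Nat.log_mono_right (Finset.card_image_le.trans ((Finset.card_le_card hV).trans
        ((hB _).trans (Nat.pow_le_pow_left hb _))))).trans (le_of_eq ?_)
      rw [← pow_mul, Nat.log_pow one_lt_two, mul_comm]
    have hl' : (Nat.log 2 (V.image D.fc).card : ℝ) ≤ (2 * (G : ℝ) + 1) * b := by exact_mod_cast hl
    have g0 : (0 : ℝ) ≤ (G : ℝ) := Nat.cast_nonneg _
    have b0 : (0 : ℝ) ≤ (b : ℝ) := Nat.cast_nonneg _
    calc (D.R.card : ℝ) * (2 * ((2 * G : ℕ) : ℝ) + 1) *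
          (C * ((Nat.log 2 (V.image D.fc).card : ℝ) + 1) ^ K) / c
        ≤ (D.R.card : ℝ) * (4 * ((G : ℝ) + 1)) *
          (C * ((3 * (b : ℝ) + 1) * ((G : ℝ) + 1)) ^ K) / c := by
          refine div_le_div_of_nonneg_right (mul_le_mul (mul_le_mul_of_nonneg_left ?_ (by positivity))
            (mul_le_mul_of_nonneg_left (pow_le_pow_left₀ (by positivity) ?_ _) hC) (by positivity)
            (by positivity)) hc.le
          · push_cast; linarith
          · nlinarith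
      _ = _ := by simp only [Y1, mul_pow, pow_succ]; ring
  -- the heavy points are few
  have hex : ∀ x ∈ U, ∃ i, x ∈ H i := fun x hx => by
    obtain ⟨i, -, hi⟩ := Finset.mem_biUnion.1 hx
    exact ⟨i, hi⟩
  choose! iOf hiOf using hex
  have hUsum : ∑ x ∈ U, D.val S (iOf x) q x ≤ Y1 * ((G : ℝ) + 1) ^ (K + 1) :=
    hlim (fun t => ∑ x ∈ U, D.val S (iOf x) t x) (continuous_finsetSum _ fun x _ => hval _ x) _
      fun t ht htq => (Finset.sum_le_sum fun x _ => hle _ x t ht htq).trans (hmass t ht htq U hUball)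
  have hGA : (0 : ℝ) < ((G : ℝ) + 1) ^ A := by positivity
  have hG2 : ((G : ℝ) + 1) ≤ (2 : ℝ) ^ (a * j + 1) := by
    have h : G + 1 ≤ 2 ^ (a * j + 1) := by rw [pow_succ]; omega
    exact_mod_cast h
  have hL : Nat.log 2 U.card ≤ c1 * (j + 1) := by
    have h1 : (U.card : ℝ) ≤ ∑ x ∈ U, D.val S (iOf x) q x * ((G : ℝ) + 1) ^ A := by
      rw [Finset.cast_card]
      exact Finset.sum_le_sum fun x hx => (Finset.mem_filter.1 (hiOf x hx)).2.le
    rw [← Finset.sum_mul] at h1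
    have h2 : (U.card : ℝ) ≤ (2 : ℝ) ^ (a1 + (a * j + 1) * (K + 1 + A)) := by
      refine h1.trans ((mul_le_mul_of_nonneg_right hUsum hGA.le).trans ?_)
      rw [mul_assoc, ← pow_add, pow_add (2 : ℝ), pow_mul]
      exact mul_le_mul ha1 (pow_le_pow_left₀ (by positivity) hG2 _) (by positivity) (by positivity)
    have h3 : U.card ≤ 2 ^ (a1 + (a * j + 1) * (K + 1 + A)) := by exact_mod_cast h2
    have h4 := Nat.log_mono_right (b := 2) h3
    rw [Nat.log_pow one_lt_two] at h4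
    refine h4.trans ?_
    calc a1 + (a * j + 1) * (K + 1 + A) ≤ a1 * (j + 1) + (a + 1) * (j + 1) * (K + 1 + A) :=
          Nat.add_le_add (Nat.le_mul_of_pos_right _ (by omega))
            (Nat.mul_le_mul_right _ (by rw [add_one_mul a, Nat.mul_succ]; omega))
      _ = _ := by simp only [c1]; ring
  have hN : 2 * d * Nat.log 2 U.card ≤ N := by
    refine (Nat.mul_le_mul_left _ hL).trans ?_
    simp only [N, c2]
    rw [← mul_assoc, add_one_mul (2 * d * c1)]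
    exact Nat.le_add_right _ _
  have hkk : N ≤ 2 ^ kk := (Nat.lt_pow_succ_log_self one_lt_two N).le
  have hkk2 : 2 ^ kk ≤ 2 * N := by
    rw [pow_succ']
    exact Nat.mul_le_mul_left _ (Nat.pow_log_le_self 2 (by simp [N, c2]))
  have hGr : (G : ℝ) = (2 : ℝ) ^ (a * j) := by simp [G]
  set T := fun t => ∑ i ∈ I, ∑ x ∈ H i, D.val S i t x
  have hT : T q ^ 2 ≤ (G : ℝ) ^ 2 * (W * ((j : ℝ) + 1) ^ E / (2 : ℝ) ^ j) := by
    refine hlim (fun t => T t ^ 2) ((continuous_finsetSum _ fun i _ =>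
      continuous_finsetSum _ fun x _ => hval i x).pow 2) _ ?_
    intro t ht htq
    have h0 : 0 < t := hp0.trans_le ht
    have h1 : t ≤ 1 := htq.le.trans hq1
    set s0 : ℝ := (1 / 2) ^ (a * m)
    set β : ℝ := (t ^ (c0 * (kk + 2 * (Ms + Lu) + 5))) ^ 2
    have hs0 : (0 : ℝ) < s0 := by positivity
    have hs0f : s0 ≤ t ^ (c0 * m) := by
      simp only [s0]
      rw [pow_mul, pow_mul]
      exact pow_le_pow_left₀ (by positivity) (ha0.trans (pow_le_pow_left₀ hp0.le ht _)) _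
    have hsI : s0 * (4 * (G : ℝ) + 1) ≤ 1 := by
      have h : 4 * G + 1 ≤ 2 ^ (a * m) := by
        rw [show a * m = a * j + 3 * a by simp only [m]; ring, pow_add]
        have : 2 ^ 3 ≤ 2 ^ (3 * a) := Nat.pow_le_pow_right (by norm_num) (by omega)
        have := Nat.mul_le_mul_left G this
        simp only [G] at this ⊢
        omega
      have h' : 4 * (G : ℝ) + 1 ≤ (2 : ℝ) ^ (a * m) := by exact_mod_cast h
      refine (mul_le_mul_of_nonneg_left h' hs0.le).trans_eq ?_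
      simp only [s0]
      rw [← mul_pow]
      norm_num
    have hmain := atom_bound D S hinj hd h0 h1 (hlogt t ht htq) hC hgv hr
      (Du := Du) (Lu := Lu) (fun u hu => Finset.le_sup (f := fun u => (D.zc u).natAbs) hu)
      (fun u hu => Finset.le_sup (f := D.len) hu) hMs G m kk H
      (fun i => Finset.filter_subset _ _) (hN.trans hkk) hs0 hs0f hsI
    set b1 : ℝ := ((2 * (c2 : ℝ)) * ((j : ℝ) + 1)) ^ a * 2 ^ (a * e0)
    have hb1 : 1 ≤ t ^ (c0 * (kk + 2 * (Ms + Lu) + 5)) * b1 := by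
      have h2 : (2 : ℝ) ^ (a * kk) ≤ ((2 * (c2 : ℝ)) * ((j : ℝ) + 1)) ^ a := by
        rw [mul_comm a, pow_mul]
        refine pow_le_pow_left₀ (by positivity) ?_ _
        have : ((2 ^ kk : ℕ) : ℝ) ≤ ((2 * N : ℕ) : ℝ) := Nat.cast_le.2 hkk2
        simp only [N] at this
        push_cast at this
        linarith
      refine le_trans ?_ (mul_le_mul (pow_le_pow_left₀ (by positivity) (ha0.trans
        (pow_le_pow_left₀ hp0.le ht _)) (kk + e0) |>.trans_eq ?_)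
        (mul_le_mul_of_nonneg_right h2 (by positivity)) (by positivity) (by positivity))
      · rw [← pow_mul, ← pow_add, ← mul_add a kk e0, ← mul_pow]
        norm_num
      · rw [← pow_mul]
        rfl
    have hfac : 1 ≤ (2 : ℝ) ^ m * s0 * β * (b1 ^ 2 * 2 ^ (a * m) / 2 ^ m) := by
      have : (2 : ℝ) ^ m * s0 * β * (b1 ^ 2 * 2 ^ (a * m) / 2 ^ m) =
          (s0 * 2 ^ (a * m)) * (t ^ (c0 * (kk + 2 * (Ms + Lu) + 5)) * b1) ^ 2 := by
        simp only [β]; field_simp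
      rw [this, show s0 * 2 ^ (a * m) = 1 by simp only [s0]; rw [← mul_pow]; norm_num, one_mul]
      exact one_le_pow₀ hb1
    have k1 : (kk : ℝ) + 1 ≤ 2 * (c2 : ℝ) * ((j : ℝ) + 1) := by
      have h : kk + 1 ≤ 2 * N := (Nat.succ_le_of_lt Nat.lt_two_pow_self).trans hkk2
      have h' : ((kk + 1 : ℕ) : ℝ) ≤ ((2 * N : ℕ) : ℝ) := Nat.cast_le.2 h
      simp only [N] at h'
      push_cast at h'
      linarith
    have hL' : (Nat.log 2 U.card : ℝ) ≤ (c1 : ℝ) * ((j : ℝ) + 1) := by exact_mod_cast hL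
    have h := mul_le_mul_of_nonneg_right hmain
      (show (0 : ℝ) ≤ b1 ^ 2 * 2 ^ (a * m) / 2 ^ m by positivity)
    refine le_trans ((le_mul_of_one_le_right (sq_nonneg (T t)) hfac).trans_eq ?_) (h.trans ?_)
    · simp only [β, T, c0, mul_assoc]
      rfl
    · rw [hGr]
      exact scale_le (Q := (Ms : ℝ) * D.R.card * (2 * Du + 1)) (e0 := e0) hC k1 hL'
  -- a good window
  obtain ⟨i, hiI, hi⟩ : ∃ i ∈ I, ∑ x ∈ H i, D.val S i q x ≤ T q / G := by
    refine Finset.exists_le_of_sum_le (Finset.nonempty_Ioc.2 (by omega)) ?_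
    rw [Finset.sum_const, Nat.card_Ioc, nsmul_eq_mul, show 2 * G - G = G by omega,
      mul_div_cancel₀ _ (by positivity)]
  obtain ⟨hi1, hi2⟩ := Finset.mem_Ioc.1 hiI
  have hlen1 : D.len 1 < i := by
    have := Nat.lt_two_pow_self (n := j)
    omega
  refine ⟨i, hlen1, H i, Finset.filter_subset _ _, ?_⟩
  have h0q : 0 ≤ q := (hp0.trans hq).le
  have hv : ∀ x, 0 ≤ D.val S i q x := fun x => tauS_nonneg h0q hq1 _ _ _
  have hWsum : ∑ x ∈ D.win S i, D.val S i q x ≤ Y1 * ((G : ℝ) + 1) ^ (K + 1) :=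
    hlim (fun t => ∑ x ∈ D.win S i, D.val S i t x)
      (continuous_finsetSum _ fun x _ => hval i x) _
      fun t ht htq => (Finset.sum_le_sum fun x _ => hle _ x t ht htq).trans
        (hmass t ht htq _ (hWball i hiI))
  have hrest : (∑ x ∈ D.win S i \ H i, D.val S i q x ^ 2) * ((G : ℝ) + 1) ^ A ≤
      Y1 * ((G : ℝ) + 1) ^ (K + 1) := by
    rw [Finset.sum_mul]
    refine le_trans (Finset.sum_le_sum fun x hx => ?_)
      ((Finset.sum_le_sum_of_subset_of_nonneg Finset.sdiff_subset fun x _ _ => hv x).trans hWsum)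
    obtain ⟨hxW, hxH⟩ := Finset.mem_sdiff.1 hx
    have : D.val S i q x * ((G : ℝ) + 1) ^ A ≤ 1 :=
      not_lt.1 fun h => hxH (Finset.mem_filter.2 ⟨hxW, h⟩)
    rw [pow_two, mul_assoc]
    exact mul_le_of_le_one_right (hv x) this
  have hrest' : ((D.R.card : ℝ) * D.R.card * (((i : ℝ) + 1) ^ d * ((i : ℝ) + 1) ^ d) *
      (2 * (i : ℝ) + 1)) ^ 2 * ∑ x ∈ D.win S i \ H i, D.val S i q x ^ 2 ≤ Z / (2 : ℝ) ^ j := by
    refine (light_le hi2 (by positivity) (Finset.sum_nonneg fun x _ => sq_nonneg _) hrest).trans ?_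
    refine div_le_div_of_nonneg_left hZ (by positivity) ?_
    have : ((2 ^ j : ℕ) : ℝ) ≤ G := Nat.cast_le.2 hjG
    push_cast at this
    linarith
  have hh : (∑ x ∈ H i, D.val S i q x) ^ 2 ≤ W * ((j : ℝ) + 1) ^ E / (2 : ℝ) ^ j := by
    refine (pow_le_pow_left₀ (Finset.sum_nonneg fun x _ => hv x) hi 2).trans ?_
    rw [div_pow, div_le_iff₀' (by positivity)]
    exact hT
  have hc0 : (0 : ℝ) ≤ ((gens S).card : ℝ) ^ 2 := sq_nonneg _
  unfold Dec.kap
  refine lt_of_le_of_lt (mul_le_mul_of_nonneg_left (add_le_add hh hrest') (by positivity)) ?_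
  linarith

end Vale.Agent.P165FreeProd.WithZ
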