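import Vale.Agent.P165FreeProd.Code

/-!
# Groups with a product of free groups and the integers of finite index
-/

namespace Vale.Agent.P165FreeProd.WithZ

open FreeGroup

variable {d : ℕ} {n : Fin d → ℕ} {Γ : Type*} [Group Γ]

variable (n) in
/-- A product of free groups and the integers. -/
abbrev ZPrd : Type := Prd n × Multiplicative ℤ

/-- The word length. -/
def size (h : ZPrd n) : ℕ := (∑ i, ((h.1 i).toWord).length) + (Multiplicative.toAdd h.2).natAbs

theorem size_mul_le (a b : ZPrd n) : size (a * b) ≤ size a + size b := by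
  simp only [size, Prod.fst_mul, Prod.snd_mul, toAdd_mul, Pi.mul_apply]
  have h1 := Int.natAbs_add_le (Multiplicative.toAdd a.2) (Multiplicative.toAdd b.2)
  have h2 : ∑ i, ((a.1 i * b.1 i).toWord).length ≤
      (∑ i, ((a.1 i).toWord).length) + ∑ i, ((b.1 i).toWord).length := by
    rw [← Finset.sum_add_distrib]
    exact Finset.sum_le_sum fun i _ => FreeGroup.norm_mul_le _ _
  omega

theorem size_inv (a : ZPrd n) : size a⁻¹ = size a := by
  simp only [size, Prod.fst_inv, Prod.snd_inv, toAdd_inv, Int.natAbs_neg, Pi.inv_apply]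
  congr 1
  exact Finset.sum_congr rfl fun i _ => FreeGroup.norm_inv_eq

/-- Representatives for the right cosets of the image of a product of free groups. -/
structure Dec (emb : ZPrd n →* Γ) where
  /-- the representatives -/
  R : Finset Γ
  /-- the component in the product -/
  hc : Γ → ZPrd n
  /-- the representative -/
  rc : Γ → Γ
  mem : ∀ x, rc x ∈ R
  eq : ∀ x, emb (hc x) * rc x = x
  equiv : ∀ h x, hc (emb h * x) = h * hc x

theorem exists_dec (emb : ZPrd n →* Γ) (hinj : Function.Injective emb)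
    (hfi : emb.range.FiniteIndex) : Nonempty (Dec emb) := by
  classical
  haveI := hfi
  haveI : Fintype (Γ ⧸ emb.range) := Subgroup.fintypeQuotientOfFiniteIndex
  set rc : Γ → Γ := fun x => (QuotientGroup.mk x⁻¹ : Γ ⧸ emb.range).out⁻¹
  have h1 : ∀ x, ∃ h : ZPrd n, emb h * rc x = x := by
    intro x
    obtain ⟨⟨_, h, rfl⟩, e⟩ := QuotientGroup.mk_out_eq_mul emb.range x⁻¹
    refine ⟨h, ?_⟩
    simp only [rc, e, mul_inv_rev, inv_inv]
    group
  choose hc hhc using h1
  refine ⟨⟨(Finset.univ : Finset (Γ ⧸ emb.range)).image (fun q => q.out⁻¹), hc, rc,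
    fun x => Finset.mem_image_of_mem _ (Finset.mem_univ _), hhc, fun h x => hinj ?_⟩⟩
  have e : rc (emb h * x) = rc x := by
    simp only [rc]
    congr 2
    rw [QuotientGroup.eq]
    simp [mul_assoc]
  have h2 := hhc (emb h * x)
  rw [e] at h2
  rw [_root_.map_mul]
  refine mul_right_cancel (b := rc x) ?_
  rw [h2, mul_assoc, hhc]

variable {emb : ZPrd n →* Γ} (D : Dec emb)

/-- The length of the component in the product. -/
def Dec.len (x : Γ) : ℕ := size (D.hc x)

/-- The component in the free factors. -/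
def Dec.fc (x : Γ) : Prd n := (D.hc x).1

/-- The component in the integers. -/
def Dec.zc (x : Γ) : ℤ := Multiplicative.toAdd (D.hc x).2

theorem Dec.len_eq (x : Γ) :
    D.len x = (∑ i, ((D.fc x i).toWord).length) + (D.zc x).natAbs := rfl

theorem Dec.len_mul (x s : Γ) : D.len (x * s) ≤ D.len x + D.len (D.rc x * s) := by
  have e : D.hc (x * s) = D.hc x * D.hc (D.rc x * s) := by
    rw [← D.equiv, ← mul_assoc, D.eq]
  simp only [Dec.len, e]
  exact size_mul_le _ _

theorem exists_step (T : Finset Γ) : ∃ M : ℕ, ∀ x, ∀ s ∈ T, D.len (x * s) ≤ D.len x + M := by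
  classical
  refine ⟨(D.R ×ˢ T).sup fun q => D.len (q.1 * q.2), fun x s hs => (D.len_mul x s).trans ?_⟩
  exact Nat.add_le_add_left (Finset.le_sup (f := fun q : Γ × Γ => D.len (q.1 * q.2))
    (Finset.mem_product.2 ⟨D.mem x, hs⟩ : (D.rc x, s) ∈ _)) _

theorem ofFn_getElem_reduce {β : Type*} : ∀ (l : List β) (m : ℕ), l.length ≤ m →
    (List.ofFn fun j : Fin m => l[j.val]?).reduceOption = l
  | [], m, _ => by
    induction m with
    | zero => simp
    | succ m ih => simpa [List.ofFn_succ] using ih (Nat.zero_le _)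
  | a :: l, 0, h => by simp at h
  | a :: l, m + 1, h => by
    simp [List.ofFn_succ, List.reduceOption_cons_of_some,
      ofFn_getElem_reduce l m (by simpa using h)]

open Classical in
/-- A finite set holding every element of length below `m`. -/
noncomputable def Dec.cover (m : ℕ) : Finset Γ :=
  (D.R ×ˢ ((Finset.univ : Finset (∀ i : Fin d, Fin m → Option (Fin (n i + 2) × Bool))) ×ˢ
    (Finset.univ : Finset (Fin (2 * m + 1))))).image
    fun q => emb (fun i => FreeGroup.mk (List.ofFn (q.2.1 i)).reduceOption,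
      Multiplicative.ofAdd ((q.2.2.val : ℤ) - m)) * q.1

/-- The elements of length below `m`. -/
noncomputable def Dec.ball (m : ℕ) : Finset Γ := (D.cover m).filter fun x => D.len x < m

theorem Dec.mem_ball {m : ℕ} {x : Γ} : x ∈ D.ball m ↔ D.len x < m := by
  classical
  refine ⟨fun h => (Finset.mem_filter.1 h).2, fun h => Finset.mem_filter.2 ⟨?_, h⟩⟩
  have h2 : (D.zc x).natAbs ≤ m := by rw [D.len_eq] at h; omega
  refine Finset.mem_image.2 ⟨(D.rc x, (fun i j => ((D.fc x i).toWord)[j.val]?,
    ⟨((D.zc x) + m).toNat, by omega⟩)), by simp [D.mem], ?_⟩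
  convert D.eq x using 3
  refine Prod.ext (funext fun i => ?_) ?_
  · show FreeGroup.mk _ = D.fc x i
    rw [ofFn_getElem_reduce, FreeGroup.mk_toWord]
    have h3 : ((D.fc x i).toWord).length ≤ ∑ j, ((D.fc x j).toWord).length :=
      Finset.single_le_sum (f := fun j => ((D.fc x j).toWord).length)
        (fun _ _ => Nat.zero_le _) (Finset.mem_univ i)
    rw [D.len_eq] at h
    omega
  · show Multiplicative.ofAdd _ = (D.hc x).2
    refine Multiplicative.toAdd.injective ?_
    show (((D.zc x + m).toNat : ℕ) : ℤ) - m = D.zc x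
    omega

theorem exists_card_ball : ∃ B : ℕ, ∀ m, (D.ball m).card ≤ B ^ (m + 1) := by
  classical
  set b := ∏ i : Fin d, Fintype.card (Option (Fin (n i + 2) × Bool))
  refine ⟨3 * (D.R.card + 1) * (b + 1), fun m => (Finset.card_filter_le _ _).trans
    (Finset.card_image_le.trans ?_)⟩
  rw [Finset.card_product, Finset.card_product, Finset.card_univ, Finset.card_univ,
    Fintype.card_pi, Fintype.card_fin]
  simp only [Fintype.card_fun, Fintype.card_fin, Finset.prod_pow]
  rw [mul_pow, mul_pow]
  have h1 : D.R.card ≤ (D.R.card + 1) ^ (m + 1) :=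
    (Nat.le_succ _).trans (Nat.le_self_pow (by omega) _)
  have h2 : b ^ m ≤ (b + 1) ^ (m + 1) := (Nat.pow_le_pow_left (Nat.le_succ _) m).trans
    (Nat.pow_le_pow_right (by omega) (Nat.le_succ _))
  have h3 : 2 * m + 1 ≤ 3 ^ (m + 1) := by
    clear h1 h2
    induction m with
    | zero => simp
    | succ m ih => rw [pow_succ]; omega
  calc D.R.card * (b ^ m * (2 * m + 1)) = (2 * m + 1) * D.R.card * b ^ m := by ring
    _ ≤ _ := Nat.mul_le_mul (Nat.mul_le_mul h3 h1) h2

open Classical in
/-- A convolution inequality of Haagerup type, for functions carried by a ball. -/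
theorem conv_le [DecidableEq Γ] (hinj : Function.Injective emb) {m : ℕ} {A : Finset Γ}
    (hA : ∀ x ∈ A, D.len x ≤ m) (Z B : Finset Γ) (f g : Γ → ℝ) :
    ∑ z ∈ Z, (∑ x ∈ A.filter (fun x => x⁻¹ * z ∈ B), f x * g (x⁻¹ * z)) ^ 2 ≤
      (((D.R.card : ℝ) * D.R.card * (((m : ℝ) + 1) ^ d * ((m : ℝ) + 1) ^ d) * (2 * (m : ℝ) + 1)) ^ 2) *
        ((∑ x ∈ A, f x ^ 2) * ∑ y ∈ B, g y ^ 2) := by
  have hlen : ∀ x ∈ A, ∀ i, ((D.fc x i).toWord).length ≤ m := fun x hx i =>
    (Finset.single_le_sum (f := fun i => ((D.fc x i).toWord).length)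
      (fun _ _ => Nat.zero_le _) (Finset.mem_univ i)).trans
        ((Nat.le_add_right _ _).trans (hA x hx))
  have hz : ∀ x ∈ A, (D.zc x).natAbs ≤ m := fun x hx => (Nat.le_add_left _ _).trans (hA x hx)
  choose ca cb hca hcb hw using fun (i : Fin d) (h k : FreeGroup (Fin (n i + 2))) => exists_key h k
  set K := ((D.R ×ˢ D.R) ×ˢ
    ((Finset.univ : Finset (Fin d → Fin (m + 1))) ×ˢ (Finset.univ : Finset (Fin d → Fin (m + 1)))))
      ×ˢ (Finset.univ : Finset (Fin (2 * m + 1)))
  set key : Γ → Γ → ((Γ × Γ) × ((Fin d → Fin (m + 1)) × (Fin d → Fin (m + 1)))) ×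
      Fin (2 * m + 1) := fun x z =>
    (((D.rc x, D.rc z), (fun i => ⟨min (ca i (D.fc x i) (D.fc z i)) m, by omega⟩,
      fun i => ⟨min (cb i (D.fc x i) (D.fc z i)) m, by omega⟩)),
      ⟨min ((D.zc x + m).toNat) (2 * m), by omega⟩)
  have hkeyK : ∀ x z, key x z ∈ K := fun x z => by simp [K, key, D.mem]
  set F : _ → Γ → ℝ := fun κ z =>
    ∑ x ∈ A.filter (fun x => x⁻¹ * z ∈ B ∧ key x z = κ), f x * g (x⁻¹ * z)
  have hsplit : ∀ z, ∑ x ∈ A.filter (fun x => x⁻¹ * z ∈ B), f x * g (x⁻¹ * z) = ∑ κ ∈ K, F κ z := by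
    intro z
    rw [← Finset.sum_fiberwise_of_maps_to (g := fun x => key x z) (fun x _ => hkeyK x z)]
    refine Finset.sum_congr rfl fun κ _ => Finset.sum_congr ?_ fun _ _ => rfl
    rw [Finset.filter_filter]
  have hF : ∀ κ ∈ K, ∑ z ∈ Z, F κ z ^ 2 ≤ (∑ x ∈ A, f x ^ 2) * ∑ y ∈ B, g y ^ 2 := by
    intro κ _
    set cl : Γ → Finset Γ := fun z => A.filter fun x => x⁻¹ * z ∈ B ∧ key x z = κ
    calc ∑ z ∈ Z, F κ z ^ 2
        ≤ ∑ z ∈ Z, (∑ x ∈ cl z, f x ^ 2) * ∑ x' ∈ cl z, g (x'⁻¹ * z) ^ 2 :=
          Finset.sum_le_sum fun z _ => Finset.sum_mul_sq_le_sq_mul_sq _ _ _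
      _ = ∑ q ∈ Z.sigma (fun z => cl z ×ˢ cl z), f q.2.1 ^ 2 * g (q.2.2⁻¹ * q.1) ^ 2 := by
          rw [Finset.sum_sigma]
          exact Finset.sum_congr rfl fun z _ => by rw [Finset.sum_mul_sum, Finset.sum_product]
      _ = ∑ q ∈ (Z.sigma fun z => cl z ×ˢ cl z).image (fun q => (q.2.1, q.2.2⁻¹ * q.1)),
            f q.1 ^ 2 * g q.2 ^ 2 := by
          rw [Finset.sum_image]
          rintro ⟨z, x, x'⟩ hq ⟨z₁, x₁, x₁'⟩ hq₁ he
          simp only [Finset.mem_coe, Finset.mem_sigma, Finset.mem_product, cl,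
            Finset.mem_filter] at hq hq₁
          simp only [Prod.mk.injEq] at he
          obtain ⟨rfl, he⟩ := he
          obtain ⟨-, ⟨hxA, -, kx⟩, ⟨hxA', -, kx'⟩⟩ := hq
          obtain ⟨-, ⟨-, -, kx₁⟩, ⟨hxA₁', -, kx₁'⟩⟩ := hq₁
          have r1 : D.rc z = D.rc z₁ := by
            have := congrArg (fun q => q.1.1.2) (kx.trans kx₁.symm)
            simpa [key] using this
          have r2 : D.rc x' = D.rc x₁' := by
            have := congrArg (fun q => q.1.1.1) (kx'.trans kx₁'.symm)
            simpa [key] using this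
          have hY : (D.hc x')⁻¹ * D.hc z = (D.hc x₁')⁻¹ * D.hc z₁ := by
            refine hinj ?_
            have e : ∀ (x z : Γ), emb ((D.hc x)⁻¹ * D.hc z) =
                D.rc x * (x⁻¹ * z) * (D.rc z)⁻¹ := by
              intro x z
              have hx : emb (D.hc x) = x * (D.rc x)⁻¹ := eq_mul_inv_of_mul_eq (D.eq x)
              have hz : emb (D.hc z) = z * (D.rc z)⁻¹ := eq_mul_inv_of_mul_eq (D.eq z)
              rw [_root_.map_mul, _root_.map_inv, hx, hz, mul_inv_rev, inv_inv]
              simp only [mul_assoc]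
            rw [e, e, r1, r2, he]
          have hzc : D.zc z = D.zc z₁ := by
            have c1 := congrArg (fun q => q.2.val) (kx'.trans kx₁'.symm)
            simp only [key] at c1
            have l1 := hz x' hxA'
            have l2 := hz x₁' hxA₁'
            have hY2 : -D.zc x' + D.zc z = -D.zc x₁' + D.zc z₁ :=
              congrArg (fun q : ZPrd n => Multiplicative.toAdd q.2) hY
            omega
          have hhc : D.hc z = D.hc z₁ := by
            refine Prod.ext (funext fun i => ?_) (Multiplicative.toAdd.injective hzc)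
            refine toWord_injective ?_
            have a1 := congrArg (fun q => (q.1.2.1 i).val) (kx.trans kx₁.symm)
            have a2 := congrArg (fun q => (q.1.2.1 i).val) (kx.trans kx'.symm)
            have a3 := congrArg (fun q => (q.1.2.1 i).val) (kx₁.trans kx₁'.symm)
            have b1 := congrArg (fun q => (q.1.2.2 i).val) (kx'.trans kx₁'.symm)
            simp only [key] at a1 a2 a3 b1
            have l1 := hlen x hxA i
            have l2 := hlen x' hxA' i
            have l3 := hlen x₁' hxA₁' i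
            have m1 := hca i (D.fc x i) (D.fc z i)
            have m2 := hca i (D.fc x i) (D.fc z₁ i)
            have m5 := hcb i (D.fc x' i) (D.fc z i)
            have m6 := hcb i (D.fc x₁' i) (D.fc z₁ i)
            have m3 := hca i (D.fc x' i) (D.fc z i)
            have m4 := hca i (D.fc x₁' i) (D.fc z₁ i)
            have A1 : ca i (D.fc x i) (D.fc z i) = ca i (D.fc x i) (D.fc z₁ i) := by omega
            have A2 : ca i (D.fc x i) (D.fc z i) = ca i (D.fc x' i) (D.fc z i) := by omega
            have A3 : ca i (D.fc x i) (D.fc z₁ i) = ca i (D.fc x₁' i) (D.fc z₁ i) := by omega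
            have B1 : cb i (D.fc x' i) (D.fc z i) = cb i (D.fc x₁' i) (D.fc z₁ i) := by omega
            have hYi : (D.fc x' i)⁻¹ * D.fc z i = (D.fc x₁' i)⁻¹ * D.fc z₁ i := congrFun (congrArg Prod.fst hY) i
            -- the beginning, from `x`
            have u1 : (D.fc z i).toWord.take (ca i (D.fc x i) (D.fc z i)) =
                (D.fc x i).toWord.take (ca i (D.fc x i) (D.fc z i)) := by
              conv_lhs => rw [hw i (D.fc x i) (D.fc z i), List.take_append_of_le_length
                (by rw [List.length_take]; omega), List.take_take, min_self]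
            have u2 : (D.fc z₁ i).toWord.take (ca i (D.fc x i) (D.fc z i)) =
                (D.fc x i).toWord.take (ca i (D.fc x i) (D.fc z i)) := by
              rw [A1]
              conv_lhs => rw [hw i (D.fc x i) (D.fc z₁ i), List.take_append_of_le_length
                (by rw [List.length_take]; omega), List.take_take, min_self]
            -- the end, from the quotient
            have w1 : (D.fc z i).toWord.drop (ca i (D.fc x i) (D.fc z i)) =
                ((D.fc x' i)⁻¹ * D.fc z i).toWord.drop (cb i (D.fc x' i) (D.fc z i)) := by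
              rw [A2]
              conv_lhs => rw [hw i (D.fc x' i) (D.fc z i),
                List.drop_left' (by rw [List.length_take]; omega)]
            have w2 : (D.fc z₁ i).toWord.drop (ca i (D.fc x i) (D.fc z i)) =
                ((D.fc x₁' i)⁻¹ * D.fc z₁ i).toWord.drop (cb i (D.fc x₁' i) (D.fc z₁ i)) := by
              rw [A1, A3]
              conv_lhs => rw [hw i (D.fc x₁' i) (D.fc z₁ i),
                List.drop_left' (by rw [List.length_take]; omega)]
            show (D.fc z i).toWord = (D.fc z₁ i).toWord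
            rw [← List.take_append_drop (ca i (D.fc x i) (D.fc z i)) (D.fc z i).toWord,
              ← List.take_append_drop (ca i (D.fc x i) (D.fc z i)) (D.fc z₁ i).toWord,
              u1, u2, w1, w2, hYi, B1]
          have hzz : z = z₁ := by rw [← D.eq z, ← D.eq z₁, hhc, r1]
          subst hzz
          have hxx : x' = x₁' := inv_injective (mul_right_cancel he)
          subst hxx
          rfl
      _ ≤ ∑ q ∈ A ×ˢ B, f q.1 ^ 2 * g q.2 ^ 2 := by
          refine Finset.sum_le_sum_of_subset_of_nonneg ?_ fun q _ _ => by positivity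
          intro q hq
          obtain ⟨⟨z, x, x'⟩, hm, rfl⟩ := Finset.mem_image.1 hq
          simp only [Finset.mem_sigma, Finset.mem_product, cl, Finset.mem_filter] at hm
          exact Finset.mem_product.2 ⟨hm.2.1.1, hm.2.2.2.1⟩
      _ = _ := by rw [Finset.sum_mul_sum, Finset.sum_product]
  calc ∑ z ∈ Z, (∑ x ∈ A.filter (fun x => x⁻¹ * z ∈ B), f x * g (x⁻¹ * z)) ^ 2
      ≤ ∑ z ∈ Z, (K.card : ℝ) * ∑ κ ∈ K, F κ z ^ 2 := Finset.sum_le_sum fun z _ => by
        rw [hsplit]; exact sq_sum_le_card_mul_sum_sq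
    _ = (K.card : ℝ) * ∑ κ ∈ K, ∑ z ∈ Z, F κ z ^ 2 := by rw [← Finset.mul_sum, Finset.sum_comm]
    _ ≤ (K.card : ℝ) * ∑ κ ∈ K, (∑ x ∈ A, f x ^ 2) * ∑ y ∈ B, g y ^ 2 :=
        mul_le_mul_of_nonneg_left (Finset.sum_le_sum hF) (Nat.cast_nonneg _)
    _ = _ := by
        rw [Finset.sum_const, nsmul_eq_mul, ← mul_assoc, ← pow_two]
        congr 2
        simp [K]

end Vale.Agent.P165FreeProd.WithZ
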